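import Mathlib

namespace Vale.Agent.P238

open List

def codeBit (a r : ℕ) : Bool :=
  if r < 2 then true else if r % 2 = 0 then false else a.testBit ((r - 3) / 2)

def code (k a : ℕ) : List Bool := (List.range (2 * k + 3)).map (codeBit a)

def enc (k : ℕ) : List ℕ → List Bool
  | [] => []
  | a :: x => code k a ++ enc k x

@[simp] lemma length_code (k a : ℕ) : (code k a).length = 2 * k + 3 := by simp [code]

lemma length_enc (k : ℕ) (x : List ℕ) : (enc k x).length = (2 * k + 3) * x.length := by
  induction x with
  | nil => simp [enc]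
  | cons a x ih => simp [enc, ih]; ring

lemma enc_sublist (k : ℕ) {z x : List ℕ} (h : z <+ x) : enc k z <+ enc k x := by
  induction h with
  | slnil => exact Sublist.refl _
  | cons a _ ih => exact ih.trans (sublist_append_right _ _)
  | cons_cons a _ ih => exact (Sublist.refl _).append ih

lemma code_getElem? (k a r : ℕ) (hr : r < 2 * k + 3) : (code k a)[r]? = some (codeBit a r) := by
  simp [code, hr]

lemma code_inj {k a b : ℕ} (ha : a < 2 ^ k) (hb : b < 2 ^ k) (h : code k a = code k b) : a = b := by
  refine Nat.eq_of_testBit_eq fun i => ?_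
  by_cases hi : i < k
  · have h1 := code_getElem? k a (2 * i + 3) (by omega)
    have h2 := code_getElem? k b (2 * i + 3) (by omega)
    rw [h, h2] at h1
    have e1 : ¬ (2 * i + 3 < 2) := by omega
    have e2 : ¬ ((2 * i + 3) % 2 = 0) := by omega
    have e3 : (2 * i + 3 - 3) / 2 = i := by omega
    simp only [codeBit, e1, e2, e3, if_false, Option.some.injEq] at h1
    exact h1.symm
  · have : 2 ^ k ≤ 2 ^ i := Nat.pow_le_pow_right (by norm_num) (by omega)
    rw [Nat.testBit_lt_two_pow (ha.trans_le this), Nat.testBit_lt_two_pow (hb.trans_le this)]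

lemma comma_free (k a : ℕ) (ha : a < 2 ^ k) (y : List ℕ) (hy : ∀ s ∈ y, s < 2 ^ k) (β : ℕ)
    (R : List Bool) (h : drop β (enc k y) = code k a ++ R) :
    ∃ q y', β = q * (2 * k + 3) ∧ drop q y = a :: y' := by
  induction y generalizing β with
  | nil =>
    have := congrArg length h
    simp [enc] at this; omega
  | cons b y ih =>
    by_cases hβ : 2 * k + 3 ≤ β
    · obtain ⟨β', rfl⟩ : ∃ β', β = (code k b).length + β' := ⟨β - (2 * k + 3), by simp; omega⟩
      simp only [enc] at h
      rw [drop_length_add_append] at h
      obtain ⟨q, y', e1, e2⟩ := ih (fun s hs => hy s (mem_cons_of_mem _ hs)) β' h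
      exact ⟨q + 1, y', by simp [e1]; ring, by simpa using e2⟩
    · by_cases h0 : β = 0
      · subst h0
        simp only [enc, drop_zero] at h
        have := (append_inj h (by simp)).1
        have := code_inj (hy b mem_cons_self) ha this
        exact ⟨0, y, by simp, by simp [this]⟩
      · exfalso
        have g0 : (enc k (b :: y))[β]? = some true := by
          have := congrArg (·[0]?) h
          simp only [getElem?_drop, add_zero] at this
          rw [this, getElem?_append_left (by simp), code_getElem? k a 0 (by omega)]; rfl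
        have g1 : (enc k (b :: y))[β + 1]? = some true := by
          have := congrArg (·[1]?) h
          simp only [getElem?_drop] at this
          rw [this, getElem?_append_left (by simp), code_getElem? k a 1 (by omega)]; rfl
        simp only [enc] at g0 g1
        rw [getElem?_append_left (by simp; omega), code_getElem? k b β (by omega)] at g0
        by_cases hl : β + 1 < 2 * k + 3
        · rw [getElem?_append_left (by simp; omega), code_getElem? k b _ hl] at g1
          simp only [codeBit, Option.some.injEq] at g0 g1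
          split_ifs at g0 g1 <;> omega
        · have e : β = 2 * k + 2 := by omega
          simp only [codeBit, Option.some.injEq] at g0
          split_ifs at g0 <;> omega

lemma decode_aux (k : ℕ) (y : List ℕ) (hy : ∀ s ∈ y, s < 2 ^ k) (x : List ℕ)
    (hx : ∀ s ∈ x, s < 2 ^ k) (β : ℕ) (z : List Bool) (h1 : z <+ enc k x)
    (h2 : z <+ drop β (enc k y)) :
    ∃ ζ, ζ <+ x ∧ ζ <+ drop ((β + (2 * k + 2)) / (2 * k + 3)) y ∧
      x.length + 2 * z.length ≤ ζ.length + (enc k x).length + (drop β (enc k y)).length := by
  induction x generalizing β z with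
  | nil =>
    have : z = [] := by simpa [enc] using h1
    exact ⟨[], Sublist.refl _, nil_sublist _, by simp [this]⟩
  | cons a x ih =>
    obtain ⟨z1, z2, rfl, hz1, hz2⟩ := sublist_append_iff.1 h1
    obtain ⟨R1, R2, hR, hr1, hr2⟩ := append_sublist_iff.1 h2
    have hR2 : drop (β + R1.length) (enc k y) = R2 := by
      rw [← drop_drop, hR, drop_left]
    obtain ⟨ζ, k1, k2, k3⟩ := ih (fun s hs => hx s (mem_cons_of_mem _ hs)) (β + R1.length) z2 hz2
      (hR2 ▸ hr2)
    rw [hR2] at k3
    have l1 := hz1.length_le
    have l2 := hr1.length_le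
    rw [length_code] at l1
    by_cases hc : z1.length = 2 * k + 3 ∧ R1.length = 2 * k + 3
    · have e1 : z1 = code k a := hz1.eq_of_length (by simp [hc.1])
      have e2 : z1 = R1 := hr1.eq_of_length (by rw [hc.1, hc.2])
      obtain ⟨q, y', e3, e4⟩ := comma_free k a (hx a mem_cons_self) y hy β R2
        (by rw [hR, ← e2, e1])
      have d1 : (β + (2 * k + 2)) / (2 * k + 3) = q := by
        rw [e3, add_comm, Nat.add_mul_div_right _ _ (by omega), Nat.div_eq_of_lt (by omega)]; simp
      have d2 : (β + R1.length + (2 * k + 2)) / (2 * k + 3) = q + 1 := by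
        rw [hc.2, e3, show q * (2 * k + 3) + (2 * k + 3) + (2 * k + 2)
          = (2 * k + 2) + (q + 1) * (2 * k + 3) by ring, Nat.add_mul_div_right _ _ (by omega),
          Nat.div_eq_of_lt (by omega)]; simp
      rw [d2, ← drop_drop, e4] at k2
      refine ⟨a :: ζ, k1.cons_cons a, ?_, ?_⟩
      · rw [d1, e4]; exact Sublist.cons_cons a (by simpa using k2)
      · rw [hR]; simp only [enc, length_append, length_cons, length_code]; omega
    · refine ⟨ζ, k1.cons a, k2.trans ?_, ?_⟩
      · exact drop_sublist_drop_left _ (Nat.div_le_div_right (by omega))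
      · rw [hR]; simp only [enc, length_append, length_cons, length_code]; omega

lemma decode (k : ℕ) (x y : List ℕ) (hx : ∀ s ∈ x, s < 2 ^ k) (hy : ∀ s ∈ y, s < 2 ^ k)
    (z : List Bool) (h1 : z <+ enc k x) (h2 : z <+ enc k y) :
    ∃ ζ, ζ <+ x ∧ ζ <+ y ∧
      x.length + 2 * z.length ≤ ζ.length + (enc k x).length + (enc k y).length := by
  obtain ⟨ζ, k1, k2, k3⟩ := decode_aux k y hy x hx 0 z h1 (by simpa using h2)
  exact ⟨ζ, k1, k2.trans (drop_sublist _ _), by simpa using k3⟩

end Vale.Agent.P238
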