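import Mathlib

namespace Vale.Agent.P238

open Finset

structure Cuts (X : Type) where
  ι : Type
  [fin : Fintype ι]
  w : ι → ℝ
  c : ι → X → Bool
  w_nonneg : ∀ i, 0 ≤ w i

attribute [instance] Cuts.fin

noncomputable def Cuts.d {X : Type} (C : Cuts X) (x y : X) : ℝ :=
  ∑ i, if C.c i x = C.c i y then 0 else C.w i

def IsCut {X : Type} (ρ : X → X → ℝ) : Prop := ∃ C : Cuts X, ∀ x y, ρ x y = C.d x y

variable {X Y : Type}

lemma IsCut.nonneg {ρ : X → X → ℝ} (h : IsCut ρ) (x y : X) : 0 ≤ ρ x y := by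
  obtain ⟨C, h⟩ := h
  rw [h]; exact sum_nonneg fun i _ => by split_ifs; exacts [le_rfl, C.w_nonneg i]

lemma IsCut.self {ρ : X → X → ℝ} (h : IsCut ρ) (x : X) : ρ x x = 0 := by
  obtain ⟨C, h⟩ := h
  simp [h, Cuts.d]

lemma IsCut.symm {ρ : X → X → ℝ} (h : IsCut ρ) (x y : X) : ρ x y = ρ y x := by
  obtain ⟨C, h⟩ := h
  simp only [h, Cuts.d, eq_comm]

lemma IsCut.triangle {ρ : X → X → ℝ} (h : IsCut ρ) (x y z : X) : ρ x z ≤ ρ x y + ρ y z := by
  obtain ⟨C, h⟩ := h
  simp only [h, Cuts.d, ← sum_add_distrib]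
  refine sum_le_sum fun i _ => ?_
  have := C.w_nonneg i
  cases C.c i x <;> cases C.c i y <;> cases C.c i z <;> simp [this]

lemma IsCut.comap {ρ : X → X → ℝ} (h : IsCut ρ) (f : Y → X) :
    IsCut (fun a b => ρ (f a) (f b)) := by
  obtain ⟨C, h⟩ := h
  exact ⟨⟨C.ι, C.w, fun i a => C.c i (f a), C.w_nonneg⟩, fun a b => h _ _⟩

lemma IsCut.smul {ρ : X → X → ℝ} (h : IsCut ρ) {t : ℝ} (ht : 0 ≤ t) :
    IsCut (fun a b => t * ρ a b) := by
  obtain ⟨C, h⟩ := h
  refine ⟨⟨C.ι, fun i => t * C.w i, C.c, fun i => mul_nonneg ht (C.w_nonneg i)⟩, fun a b => ?_⟩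
  simp only [h, Cuts.d, mul_sum]
  exact sum_congr rfl fun i _ => by split_ifs <;> simp

lemma IsCut.sum {κ : Type} [Fintype κ] {ρ : κ → X → X → ℝ} (h : ∀ k, IsCut (ρ k)) :
    IsCut (fun a b => ∑ k, ρ k a b) := by
  choose C hC using h
  refine ⟨⟨Σ k, (C k).ι, fun i => (C i.1).w i.2, fun i => (C i.1).c i.2,
    fun i => (C i.1).w_nonneg i.2⟩, fun a b => ?_⟩
  simp only [hC, Cuts.d, Fintype.sum_sigma]

lemma IsCut.sum_range {ρ : ℕ → X → X → ℝ} (n : ℕ) (h : ∀ k, IsCut (ρ k)) :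
    IsCut (fun a b => ∑ k ∈ range n, ρ k a b) := by
  simp_rw [Finset.sum_range]
  exact IsCut.sum fun k => h k

lemma isCut_bool (c : X → Bool) : IsCut (fun a b => if c a = c b then (0 : ℝ) else 1) :=
  ⟨⟨Unit, fun _ => 1, fun _ => c, fun _ => zero_le_one⟩, fun a b => by simp [Cuts.d]⟩

lemma sum_thresh (s a b : ℕ) (ha : a ≤ s) (hb : b ≤ s) :
    ∑ k ∈ range s, (if decide (k < a) = decide (k < b) then (0 : ℝ) else 1) = |(a : ℝ) - b| := by
  wlog h : a ≤ b generalizing a b
  · rw [abs_sub_comm, ← this b a hb ha (by omega)]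
    exact sum_congr rfl fun k _ => by simp only [eq_comm]
  have : ∀ k ∈ range s, (if decide (k < a) = decide (k < b) then (0 : ℝ) else 1)
      = if k ∈ Ico a b then 1 else 0 := by
    intro k _
    by_cases h1 : k < a <;> by_cases h2 : k < b <;> simp [h1, h2] <;> omega
  rw [sum_congr rfl this, sum_ite_mem, inter_eq_right.2 (by intro k; simp; omega)]
  have h' : (a : ℝ) ≤ b := by exact_mod_cast h
  rw [abs_of_nonpos (by linarith)]
  simp [Nat.cast_sub h]

lemma isCut_abs (s : ℕ) (g : X → ℕ) (hg : ∀ x, g x ≤ s) :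
    IsCut (fun a b => |(g a : ℝ) - g b|) := by
  have := IsCut.sum_range s (fun k => isCut_bool (fun x => decide (k < g x)))
  simpa only [sum_thresh s _ _ (hg _) (hg _)] using this

section hist

variable {V : Type} [Fintype V] [DecidableEq V]

def cnt (s : ℕ) (a : ℕ → V) (v : V) : ℕ := ∑ t ∈ range s, if a t = v then 1 else 0

lemma cnt_le (s : ℕ) (a : ℕ → V) (v : V) : cnt s a v ≤ s := by
  unfold cnt
  refine (sum_le_card_nsmul _ _ 1 fun t _ => by split_ifs <;> omega).trans (by simp)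

noncomputable def hist (s : ℕ) (a b : ℕ → V) : ℝ := ∑ v, |(cnt s a v : ℝ) - cnt s b v|

lemma ind_sum (p q : V) :
    ∑ v, |(if p = v then (1 : ℝ) else 0) - (if q = v then 1 else 0)|
      ≤ if p = q then 0 else 2 := by
  split_ifs with h
  · simp [h]
  · refine (sum_le_sum fun v _ => abs_sub _ _).trans ?_
    simp only [sum_add_distrib, abs_ite, abs_one, abs_zero, sum_ite_eq, mem_univ, if_true]
    norm_num

lemma hist_le_one (s : ℕ) (a b : ℕ → V) :
    hist s a b ≤ ∑ t ∈ range s, if a t = b t then (0 : ℝ) else 2 := by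
  unfold hist cnt
  push_cast
  simp_rw [← sum_sub_distrib]
  refine (sum_le_sum fun v _ => abs_sum_le_sum_abs _ _).trans ?_
  rw [sum_comm]
  exact sum_le_sum fun t _ => ind_sum _ _

lemma hist_le_two (s : ℕ) (a b : ℕ → V) (h : ∀ t, t + 1 < s → a (t + 1) = b t) :
    hist s a b ≤ 2 := by
  rcases s with _ | s
  · simp [hist, cnt]
  unfold hist cnt
  have : ∀ v, ((∑ t ∈ range (s + 1), if a t = v then 1 else 0 : ℕ) : ℝ)
      - ((∑ t ∈ range (s + 1), if b t = v then 1 else 0 : ℕ) : ℝ)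
      = (if a 0 = v then 1 else 0) - (if b s = v then 1 else 0) := by
    intro v
    rw [sum_range_succ', sum_range_succ]
    rw [sum_congr rfl (fun t ht => by rw [h t (by simp at ht; omega)])]
    push_cast; ring
  simp_rw [this]
  refine (ind_sum _ _).trans ?_
  split_ifs <;> norm_num

lemma le_hist (s : ℕ) (a b : ℕ → V) :
    (s : ℝ) - ∑ t ∈ range s, ∑ t' ∈ range s, (if a t = b t' then (1 : ℝ) else 0) ≤ hist s a b := by
  have h1 : ∀ α β : ℕ, (α : ℝ) - α * β ≤ |(α : ℝ) - β| := by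
    intro α β
    rcases Nat.eq_zero_or_pos β with rfl | h
    · simp
    · have : (1 : ℝ) ≤ β := by exact_mod_cast h
      have h0 : (0 : ℝ) ≤ α := by positivity
      nlinarith [abs_nonneg ((α : ℝ) - β)]
  refine le_trans (le_of_eq ?_) (sum_le_sum fun v _ => h1 _ _)
  rw [sum_sub_distrib]
  unfold cnt
  push_cast
  congr 1
  · rw [sum_comm]; simp
  · simp_rw [sum_mul_sum]
    rw [sum_comm (s := univ)]
    refine sum_congr rfl fun t _ => ?_
    rw [sum_comm (s := univ)]
    refine sum_congr rfl fun t' _ => ?_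
    simp [eq_comm]

end hist

lemma IsCut.lsh {ρ : X → X → ℝ} (h : IsCut ρ) (lam : ℝ) (hl : 0 ≤ lam) (s : ℕ) :
    ∃ σ : (ℕ → X) → (ℕ → X) → ℝ, IsCut σ ∧
      (∀ A B, σ A B ≤ 2 * lam * ∑ t ∈ range s, ρ (A t) (B t)) ∧
      (∀ A B, (∀ t, t + 1 < s → A (t + 1) = B t) → σ A B ≤ 2) ∧
      (∀ A B τ, (∀ t < s, ∀ t' < s, τ ≤ ρ (A t) (B t')) →
        s * (1 - s * Real.exp (-(lam * τ))) ≤ σ A B) := by
  classical
  obtain ⟨C, hC⟩ := h
  let q : C.ι → Bool → ℝ := fun i β =>
    if β then 1 - Real.exp (-(lam * C.w i)) else Real.exp (-(lam * C.w i))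
  have hq : ∀ i β, 0 ≤ q i β := by
    intro i β
    cases β
    · simp [q]; positivity
    · have := mul_nonneg hl (C.w_nonneg i)
      simp [q]; linarith
  let W : (C.ι → Bool) → ℝ := fun S => ∏ i, q i (S i)
  have hW : ∀ S, 0 ≤ W S := fun S => prod_nonneg fun i _ => hq _ _
  let lab : (C.ι → Bool) → X → C.ι → Bool := fun S x i => S i && C.c i x
  have hsame : ∀ x y, ∑ S, W S * (if lab S x = lab S y then 1 else 0)
      = Real.exp (-(lam * ρ x y)) := by
    intro x y
    have e1 : ∀ S, W S * (if lab S x = lab S y then 1 else 0)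
        = ∏ i, (q i (S i) * if (S i && C.c i x) = (S i && C.c i y) then 1 else 0) := by
      intro S
      rw [prod_mul_distrib, prod_ite_zero]
      simp only [W, lab, funext_iff, mem_univ, forall_true_left, prod_const_one]
    simp_rw [e1]
    rw [← Fintype.piFinset_univ, ← prod_univ_sum (fun _ => univ) (fun i (β : Bool) =>
      q i β * if (β && C.c i x) = (β && C.c i y) then 1 else 0), hC, Cuts.d, mul_sum,
      ← sum_neg_distrib, Real.exp_sum]
    refine prod_congr rfl fun i _ => ?_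
    by_cases h : C.c i x = C.c i y <;> simp [q, h]
  have hone : ∑ S, W S = 1 := by
    rw [← Fintype.piFinset_univ, ← prod_univ_sum (fun _ => univ) q]
    exact prod_eq_one fun i _ => by simp [q]
  refine ⟨fun A B => ∑ S, W S * hist s (fun t => lab S (A t)) (fun t => lab S (B t)), ?_, ?_, ?_,
    ?_⟩
  · refine IsCut.sum fun S => IsCut.smul ?_ (hW S)
    exact IsCut.sum fun v => isCut_abs s (fun A : ℕ → X => cnt s (fun t => lab S (A t)) v)
      fun A => cnt_le _ _ _
  · intro A B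
    refine (sum_le_sum fun S _ => mul_le_mul_of_nonneg_left (hist_le_one _ _ _) (hW S)).trans ?_
    simp_rw [mul_sum]
    rw [sum_comm]
    refine sum_le_sum fun t _ => ?_
    have e : ∀ S, W S * (if lab S (A t) = lab S (B t) then (0 : ℝ) else 2)
        = 2 * W S - 2 * (W S * if lab S (A t) = lab S (B t) then 1 else 0) := by
      intro S; split_ifs <;> ring
    simp_rw [e]
    rw [sum_sub_distrib, ← mul_sum, ← mul_sum, hone, hsame]
    have := Real.add_one_le_exp (-(lam * ρ (A t) (B t)))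
    linarith
  · intro A B hAB
    refine (sum_le_sum fun S _ => mul_le_mul_of_nonneg_left
      (hist_le_two _ _ _ fun t ht => by rw [hAB t ht]) (hW S)).trans ?_
    rw [← sum_mul, hone, one_mul]
  · intro A B τ hτ
    refine le_trans ?_ (sum_le_sum fun S _ => mul_le_mul_of_nonneg_left (le_hist _ _ _) (hW S))
    simp_rw [mul_sub, mul_sum]
    rw [sum_sub_distrib, ← sum_mul, hone, one_mul, mul_one, sum_comm]
    refine sub_le_sub_left ?_ _
    have : ∀ t ∈ range s, ∑ S, ∑ t' ∈ range s, W S *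
        (if lab S (A t) = lab S (B t') then (1 : ℝ) else 0) ≤ s * Real.exp (-(lam * τ)) := by
      intro t ht
      rw [sum_comm]
      refine (sum_le_card_nsmul _ _ (Real.exp (-(lam * τ))) fun t' ht' => ?_).trans (by simp)
      rw [hsame]
      refine Real.exp_le_exp.2 (neg_le_neg (mul_le_mul_of_nonneg_left ?_ hl))
      exact hτ t (mem_range.1 ht) t' (mem_range.1 ht')
    exact (sum_le_card_nsmul _ _ _ this).trans (by simp)

lemma IsCut.exists_lp {ρ : X → X → ℝ} (h : IsCut ρ) :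
    ∃ f : X → lp (fun _ : ℕ => ℝ) 1, ∀ x y, ‖f x - f y‖ = ρ x y := by
  classical
  obtain ⟨C, hC⟩ := h
  let e := Fintype.equivFin C.ι
  let g : X → ℕ → ℝ := fun x k =>
    if hk : k < Fintype.card C.ι then (if C.c (e.symm ⟨k, hk⟩) x then C.w (e.symm ⟨k, hk⟩) else 0)
    else 0
  refine ⟨fun x => ∑ k ∈ range (Fintype.card C.ι), lp.single 1 k (g x k), fun x y => ?_⟩
  rw [← sum_sub_distrib]
  simp_rw [← lp.single_sub]
  have := lp.norm_sum_single (E := fun _ : ℕ => ℝ) (p := 1) (by simp) (fun k => g x k - g y k)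
    (range (Fintype.card C.ι))
  simp only [ENNReal.toReal_one, Real.rpow_one] at this
  rw [this, hC, Cuts.d, Finset.sum_range, ← e.symm.sum_comp]
  refine sum_congr rfl fun k _ => ?_
  have := C.w_nonneg (e.symm k)
  simp only [g, k.2, dif_pos, Fin.eta]
  cases C.c (e.symm k) x <;> cases C.c (e.symm k) y <;> simp [this]

end Vale.Agent.P238
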