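import Mathlib

namespace Vale.Agent.P238

/-- One edit operation on words: insert, delete or substitute a single symbol. -/
inductive EditStep {α : Type} : List α → List α → Prop
  | ins (u v : List α) (a : α) : EditStep (u ++ v) (u ++ a :: v)
  | del (u v : List α) (a : α) : EditStep (u ++ a :: v) (u ++ v)
  | sub (u v : List α) (a b : α) : EditStep (u ++ a :: v) (u ++ b :: v)

/-- `EditPath k x y`: the word `x` is transformed into `y` by exactly `k` edit operations. -/
inductive EditPath {α : Type} : ℕ → List α → List α → Prop
  | refl (x : List α) : EditPath 0 x x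
  | step {k : ℕ} {x y z : List α} : EditStep x y → EditPath k y z → EditPath (k + 1) x z

/-- Edit distance: the least number of edit operations transforming `x` into `y`. -/
noncomputable def editDist {α : Type} (x y : List α) : ℕ := sInf {k | EditPath k x y}

/-- Edit distance between two binary words of length `n`, as a real number. -/
noncomputable def edCube {n : ℕ} (x y : Fin n → Bool) : ℝ :=
  (editDist (List.ofFn x) (List.ofFn y) : ℝ)

/-- The distortion of a map from the binary words of length `n` (edit distance) to real `ℓ1`. -/
noncomputable def distortion {n : ℕ} (f : (Fin n → Bool) → lp (fun _ : ℕ => ℝ) 1) : ℝ :=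
  (⨆ p : {p : (Fin n → Bool) × (Fin n → Bool) // p.1 ≠ p.2},
      ‖f p.1.1 - f p.1.2‖ / edCube p.1.1 p.1.2) *
  (⨆ p : {p : (Fin n → Bool) × (Fin n → Bool) // p.1 ≠ p.2},
      edCube p.1.1 p.1.2 / ‖f p.1.1 - f p.1.2‖)

/-- The least distortion of an injective map of `({0,1}^n, ED)` into `ℓ1`. -/
noncomputable def c1 (n : ℕ) : ℝ :=
  ⨅ f : {f : (Fin n → Bool) → lp (fun _ : ℕ => ℝ) 1 // Function.Injective f}, distortion f.1

end Vale.Agent.P238
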