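import Vale.Agent.P238.Defs

namespace Vale.Agent.P238

open List

variable {α : Type}

lemma EditStep.cons {x y : List α} (a : α) (h : EditStep x y) : EditStep (a :: x) (a :: y) := by
  cases h with
  | ins u v b => exact EditStep.ins (a :: u) v b
  | del u v b => exact EditStep.del (a :: u) v b
  | sub u v b c => exact EditStep.sub (a :: u) v b c

lemma EditPath.cons {k : ℕ} {x y : List α} (a : α) (h : EditPath k x y) :
    EditPath k (a :: x) (a :: y) := by
  induction h with
  | refl x => exact EditPath.refl _
  | step h1 _ ih => exact EditPath.step (h1.cons a) ih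

lemma EditPath.trans {k l : ℕ} {x y z : List α} (h : EditPath k x y) (h' : EditPath l y z) :
    EditPath (l + k) x z := by
  induction h with
  | refl x => simpa using h'
  | step h1 _ ih => exact EditPath.step h1 (ih h')

lemma path_del {z x : List α} (h : z <+ x) : ∃ k, k + z.length = x.length ∧ EditPath k x z := by
  induction h with
  | slnil => exact ⟨0, rfl, EditPath.refl _⟩
  | @cons l1 l2 a _ ih =>
    obtain ⟨k, hk, hp⟩ := ih
    refine ⟨k + 1, by simp; omega, EditPath.step (EditStep.del [] l2 a) hp⟩
  | @cons_cons l1 l2 a _ ih =>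
    obtain ⟨k, hk, hp⟩ := ih
    exact ⟨k, by simp; omega, hp.cons a⟩

lemma path_ins {z x : List α} (h : z <+ x) : ∃ k, k + z.length = x.length ∧ EditPath k z x := by
  induction h with
  | slnil => exact ⟨0, rfl, EditPath.refl _⟩
  | @cons l1 l2 a _ ih =>
    obtain ⟨k, hk, hp⟩ := ih
    refine ⟨1 + k, by simp; omega, ?_⟩
    exact hp.trans (EditPath.step (EditStep.ins [] l2 a) (EditPath.refl _))
  | @cons_cons l1 l2 a _ ih =>
    obtain ⟨k, hk, hp⟩ := ih
    exact ⟨k, by simp; omega, hp.cons a⟩

lemma editDist_le_of_common {z x y : List α} (hx : z <+ x) (hy : z <+ y) :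
    editDist x y + 2 * z.length ≤ x.length + y.length := by
  obtain ⟨k, hk, hp⟩ := path_del hx
  obtain ⟨l, hl, hq⟩ := path_ins hy
  have h : editDist x y ≤ l + k := Nat.sInf_le (hp.trans hq)
  omega

lemma editPath_editDist (x y : List α) : EditPath (editDist x y) x y := by
  obtain ⟨k, _, hp⟩ := path_del (nil_sublist x)
  obtain ⟨l, _, hq⟩ := path_ins (nil_sublist y)
  exact Nat.sInf_mem (s := {k | EditPath k x y}) ⟨l + k, hp.trans hq⟩

lemma common_of_path {k : ℕ} {x y : List α} (h : EditPath k x y) :
    ∃ z, z <+ x ∧ z <+ y ∧ x.length ≤ z.length + k := by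
  induction h with
  | refl x => exact ⟨x, Sublist.refl _, Sublist.refl _, by simp⟩
  | step h1 _ ih =>
    obtain ⟨z, hz1, hz2, hl⟩ := ih
    cases h1 with
    | ins u v a =>
      obtain ⟨z1, z2, rfl, h1, h2⟩ := sublist_append_iff.1 hz1
      refine ⟨z1 ++ z2.tail, h1.append h2.tail,
        ((Sublist.refl z1).append (tail_sublist z2)).trans hz2, ?_⟩
      simp at hl ⊢; omega
    | del u v a =>
      refine ⟨z, hz1.trans ((Sublist.refl u).append (sublist_cons_self a v)), hz2, ?_⟩
      simp at hl ⊢; omega
    | sub u v a b =>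
      obtain ⟨z1, z2, rfl, h1, h2⟩ := sublist_append_iff.1 hz1
      refine ⟨z1 ++ z2.tail, h1.append (h2.tail.trans (sublist_cons_self a v)),
        ((Sublist.refl z1).append (tail_sublist z2)).trans hz2, ?_⟩
      simp at hl ⊢; omega

lemma exists_common (x y : List α) :
    ∃ z, z <+ x ∧ z <+ y ∧ x.length ≤ z.length + editDist x y :=
  common_of_path (editPath_editDist x y)

lemma eq_of_editDist_zero {x y : List α} (h : editDist x y = 0) : x = y := by
  have := editPath_editDist x y
  rw [h] at this
  cases this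
  rfl

/-- removing a common padding -/
lemma common_unpad (w x y z : List α) (hx : z <+ w ++ x) (hy : z <+ w ++ y) :
    ∃ z', z' <+ x ∧ z' <+ y ∧ z.length ≤ z'.length + w.length := by
  induction w generalizing z with
  | nil => exact ⟨z, by simpa using hx, by simpa using hy, by simp⟩
  | cons a w ih =>
    obtain ⟨z', h1, h2, h3⟩ := ih z.tail hx.tail hy.tail
    refine ⟨z', h1, h2, ?_⟩
    simp at h3 ⊢; omega

end Vale.Agent.P238
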