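import Vale.Agent.P238.Stair

namespace Vale.Agent.P238

open List

structure Gadget (M n K : ℕ) (c η : ℝ) where
  G : Type
  [acg : AddCommGroup G]
  [fin : Fintype G]
  u : G
  E : G → List ℕ
  I : Type
  [finI : Fintype I]
  w : I → ℝ
  mv : I → G
  cost : I → ℝ
  hu : M • u = 0
  len : ∀ g, (E g).length = n
  lt : ∀ g, ∀ s ∈ E g, s < K
  far : ∀ g (s : ℤ), ¬ (M : ℤ) ∣ s → ∀ z, z <+ E g → z <+ E (g + s • u) →
    (z.length : ℝ) ≤ (1 - c) * n
  w_nonneg : ∀ i, 0 ≤ w i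
  w_sum : ∑ i, w i = 1
  close : ∀ g i, ∃ z, z <+ E g ∧ z <+ E (g + mv i) ∧ (n : ℝ) ≤ z.length + cost i
  avg : ∑ i, w i * cost i ≤ η * n
  dom : ∀ ψ : AddChar G ℂ, ψ u ≠ 1 → ‖∑ i, (w i : ℂ) * ψ (mv i)‖ ≤ 3 / 4

attribute [instance] Gadget.acg Gadget.fin Gadget.finI

lemma gadget_base (M K : ℕ) (hM : 0 < M) (hK : M ≤ K) (c : ℝ) (hc : c ≤ 1) :
    Nonempty (Gadget M 1 K c 1) := by
  haveI : NeZero M := ⟨hM.ne'⟩
  have hMr : (0 : ℝ) < M := by exact_mod_cast hM
  refine ⟨{ G := ZMod M, u := 1, E := fun g => [g.val], I := ZMod M, w := fun _ => 1 / M,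
            mv := id, cost := fun _ => 1, hu := by simp, len := by simp,
            lt := ?_, far := ?_, w_nonneg := fun _ => by positivity, w_sum := ?_,
            close := ?_, avg := ?_, dom := ?_ }⟩
  · intro g s hs
    simp only [mem_singleton] at hs
    exact hs ▸ (ZMod.val_lt g).trans_le hK
  · intro g s hs z h1 h2
    have : z = [] := by
      rcases sublist_singleton.1 h1 with h | h
      · exact h
      · rcases sublist_singleton.1 h2 with h' | h'
        · exact h'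
        · exfalso; apply hs
          have e := ZMod.val_injective M (by simpa using h.symm.trans h' : g.val = (g + s • 1).val)
          have : (s : ZMod M) = 0 := by simpa using e
          exact (ZMod.intCast_zmod_eq_zero_iff_dvd s M).1 this
    rw [this]; simp; linarith
  · simp [ZMod.card]
  · intro g i; exact ⟨[], nil_sublist _, nil_sublist _, by simp⟩
  · simp [ZMod.card]
  · intro ψ hψ
    have : ψ ≠ 0 := by rintro rfl; simp at hψ
    rw [← Finset.mul_sum]
    simp only [id]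
    rw [AddChar.sum_eq_zero_iff_ne_zero.2 this]; norm_num

lemma common_map {f : ℕ → ℕ} (hf : Function.Injective f) {x y z : List ℕ} (hx : z <+ map f x)
    (hy : z <+ map f y) : ∃ z', z' <+ x ∧ z' <+ y ∧ z'.length = z.length := by
  obtain ⟨l1, h1, e1⟩ := sublist_map_iff.1 hx
  obtain ⟨l2, h2, e2⟩ := sublist_map_iff.1 hy
  have : l1 = l2 := (map_injective_iff.2 hf) (e1.symm.trans e2)
  exact ⟨l1, h1, this ▸ h2, by simp [e1]⟩

lemma geom_norm_le (ω : ℂ) (o : ℕ) (ho : 0 < o) (h1 : ω ^ o = 1) (hne : ω ≠ 1) (hn : ‖ω‖ = 1)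
    (T : ℕ) : ‖∑ t ∈ Finset.range T, ω ^ t‖ ≤ o := by
  induction T using Nat.strong_induction_on with
  | _ T ih =>
  by_cases h : T ≤ o
  · refine (norm_sum_le _ _).trans ?_
    simp [norm_pow, hn]; exact_mod_cast h
  · obtain ⟨T', rfl⟩ : ∃ T', T = o + T' := ⟨T - o, by omega⟩
    rw [Finset.sum_range_add, geom_sum_eq hne, h1]
    simp only [sub_self, zero_div, zero_add, pow_add, h1, one_mul]
    exact ih T' (by omega)

lemma addChar_sum {G ι : Type} [AddCommGroup G] (ψ : AddChar G ℂ) (s : Finset ι) (f : ι → G) :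
    ψ (∑ i ∈ s, f i) = ∏ i ∈ s, ψ (f i) := by
  classical
  induction s using Finset.induction_on with
  | empty => simp
  | insert a s ha ih => rw [Finset.sum_insert ha, Finset.prod_insert ha, AddChar.map_add_eq_mul, ih]

lemma sum_mod {N : ℕ} (hN : 0 < N) (f : Fin N → ℝ) (b : ℕ) :
    ∑ i ∈ Finset.range (b * N), f ⟨i % N, Nat.mod_lt _ hN⟩ = b * ∑ j, f j := by
  induction b with
  | zero => simp
  | succ b ih =>
    rw [add_mul, one_mul, Finset.sum_range_add, ih, Finset.sum_range]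
    have : ∀ j : Fin N, f ⟨(b * N + j) % N, Nat.mod_lt _ hN⟩ = f j := by
      intro j; congr 1; ext; simp [Nat.mod_eq_of_lt j.2]
    simp only [this]; push_cast; ring

lemma one_sub_pow_le (W : ℕ) (hW : 0 < W) : (1 - 1 / (W : ℝ)) ^ W ≤ 1 / 2 := by
  have hWr : (0 : ℝ) < W := by exact_mod_cast hW
  have hW1 : (1 : ℝ) ≤ W := by exact_mod_cast hW
  have h1 : (2 : ℝ) ≤ (1 + 1 / W) ^ W := by
    have := one_add_mul_le_pow (a := 1 / (W : ℝ)) (by
      have : (0 : ℝ) ≤ 1 / W := by positivity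
      linarith) W
    rw [mul_one_div_cancel hWr.ne'] at this; linarith
  have h0 : (0 : ℝ) ≤ 1 - 1 / W := by
    rw [sub_nonneg, div_le_one hWr]; exact hW1
  have h2 : (1 - 1 / (W : ℝ)) ^ W * (1 + 1 / W) ^ W ≤ 1 := by
    rw [← mul_pow]
    refine pow_le_one₀ (by positivity) ?_
    nlinarith [sq_nonneg (1 / (W : ℝ))]
  have h3 : 0 ≤ (1 - 1 / (W : ℝ)) ^ W := pow_nonneg h0 W
  nlinarith

lemma count_dvd (N b : ℕ) (p : ℕ → ℕ) (hp2 : ∀ j < N, 2 ≤ p j)
    (hpp : ∀ i < N, ∀ j < N, i ≠ j → Nat.Coprime (p i) (p j)) (hbN : b ^ 2 ≤ 2 ^ N) (t : ℤ) :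
    ∑ j ∈ Finset.range N, (if t ≠ 0 ∧ |t| < b ∧ (p j : ℤ) ∣ t then (1 : ℝ) else 0) ≤ N / 2 := by
  classical
  by_cases h : t ≠ 0 ∧ |t| < b
  · set S := (Finset.range N).filter (fun j => (p j : ℤ) ∣ t) with hS
    have e : ∑ j ∈ Finset.range N, (if t ≠ 0 ∧ |t| < b ∧ (p j : ℤ) ∣ t then (1 : ℝ) else 0)
        = S.card := by
      rw [hS, Finset.card_filter]; push_cast
      exact Finset.sum_congr rfl fun j _ => by simp [h.1, h.2]
    have hd : ∏ j ∈ S, p j ∣ t.natAbs := by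
      refine Finset.prod_dvd_of_isRelPrime ?_ ?_
      · intro i hi j hj hij
        simp only [hS, Finset.coe_filter, Finset.mem_range, Set.mem_ofPred_eq] at hi hj
        exact Nat.coprime_iff_isRelPrime.1 (hpp i hi.1 j hj.1 hij)
      · intro j hj
        simp only [hS, Finset.mem_filter] at hj
        exact Int.natCast_dvd.1 hj.2
    have h1 : 2 ^ S.card ≤ ∏ j ∈ S, p j := by
      refine Finset.pow_card_le_prod _ _ _ fun j hj => ?_
      simp only [hS, Finset.mem_filter, Finset.mem_range] at hj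
      exact hp2 j hj.1
    have h2 : ∏ j ∈ S, p j ≤ t.natAbs := Nat.le_of_dvd (Int.natAbs_pos.2 h.1) hd
    have h3 : t.natAbs < b := by
      have := h.2
      rw [Int.abs_eq_natAbs] at this
      exact_mod_cast this
    have h4 : 2 ^ (2 * S.card) ≤ 2 ^ N := by
      rw [mul_comm, pow_mul]
      exact (Nat.pow_le_pow_left (by omega) 2).trans hbN
    have h5 : 2 * S.card ≤ N := (Nat.pow_le_pow_iff_right (by norm_num)).1 h4
    have h6 : (2 : ℝ) * S.card ≤ N := by exact_mod_cast h5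
    rw [e]; linarith
  · have : ∀ j, ¬ (t ≠ 0 ∧ |t| < b ∧ (p j : ℤ) ∣ t) := fun j hj => h ⟨hj.1, hj.2.1⟩
    simp only [this, if_false, Finset.sum_const_zero]; positivity

end Vale.Agent.P238
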