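import Mathlib

namespace Vale.Agent.P238

open Finset

variable {G : Type} [AddCommGroup G] [Fintype G]

lemma corr_fourier (φ : G → ℝ) (a : G) :
    ∑ ψ : AddChar G ℂ, ((‖∑ g, (φ g : ℂ) * ψ g‖ ^ 2 : ℝ) : ℂ) * ψ a
      = (Fintype.card G : ℂ) * ((∑ g, φ g * φ (g + a) : ℝ) : ℂ) := by
  classical
  have h1 : ∀ ψ : AddChar G ℂ, ((‖∑ g, (φ g : ℂ) * ψ g‖ ^ 2 : ℝ) : ℂ) * ψ a
      = ∑ g, ∑ g', (φ g : ℂ) * φ g' * ψ (g - g' + a) := by
    intro ψ
    have : ((‖∑ g, (φ g : ℂ) * ψ g‖ ^ 2 : ℝ) : ℂ)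
        = (∑ g, (φ g : ℂ) * ψ g) * (starRingEnd ℂ) (∑ g, (φ g : ℂ) * ψ g) := by
      rw [Complex.mul_conj, Complex.normSq_eq_norm_sq]
    rw [this, map_sum, sum_mul_sum, sum_mul]
    refine sum_congr rfl fun g _ => ?_
    rw [sum_mul]
    refine sum_congr rfl fun g' _ => ?_
    rw [map_mul, Complex.conj_ofReal, sub_eq_add_neg, AddChar.map_add_eq_mul,
      AddChar.map_add_eq_mul, AddChar.map_neg_eq_conj]
    ring
  simp_rw [h1]
  rw [sum_comm]
  push_cast
  rw [mul_sum]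
  refine sum_congr rfl fun g _ => ?_
  rw [sum_comm]
  simp_rw [← mul_sum, AddChar.sum_apply_eq_ite]
  rw [sum_eq_single (g + a)]
  · simp; ring
  · intro b _ hb
    have : g - b + a ≠ 0 := by
      intro h; apply hb
      have h2 : b = g + a - (g - b + a) := by abel
      rw [h2, h]; simp
    simp [this]
  · simp

lemma sq_fourier (φ : G → ℝ) (a : G) :
    (Fintype.card G : ℝ) * ∑ g, (φ g - φ (g + a)) ^ 2
      = 2 * ∑ ψ : AddChar G ℂ, ‖∑ g, (φ g : ℂ) * ψ g‖ ^ 2 * (1 - (ψ a).re) := by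
  have h0 := congrArg Complex.re (corr_fourier φ 0)
  have h1 := congrArg Complex.re (corr_fourier φ a)
  rw [Complex.re_sum] at h0 h1
  simp only [Complex.re_ofReal_mul, AddChar.map_zero_eq_one, mul_one,
    add_zero, Complex.ofReal_re] at h0 h1
  have e0 : ((Fintype.card G : ℂ) * ((∑ g, φ g * φ g : ℝ) : ℂ)).re
      = Fintype.card G * ∑ g, φ g * φ g := by
    rw [← Complex.ofReal_natCast, ← Complex.ofReal_mul, Complex.ofReal_re]
  have e1 : ((Fintype.card G : ℂ) * ((∑ g, φ g * φ (g + a) : ℝ) : ℂ)).re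
      = Fintype.card G * ∑ g, φ g * φ (g + a) := by
    rw [← Complex.ofReal_natCast, ← Complex.ofReal_mul, Complex.ofReal_re]
  rw [e0] at h0; rw [e1] at h1
  have hs : ∑ g, φ (g + a) * φ (g + a) = ∑ g, φ g * φ g :=
    Fintype.sum_equiv (Equiv.addRight a) _ _ (fun _ => rfl)
  have : ∑ g, (φ g - φ (g + a)) ^ 2
      = ∑ g, φ g * φ g + ∑ g, φ (g + a) * φ (g + a) - 2 * ∑ g, φ g * φ (g + a) := by
    rw [mul_sum, ← sum_add_distrib, ← sum_sub_distrib]
    exact sum_congr rfl fun g _ => by ring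
  rw [this, hs]
  simp_rw [mul_sub, mul_one, sum_sub_distrib]
  rw [h0, h1]; ring

lemma poincare_sq {I : Type} [Fintype I] (w : I → ℝ) (hw : ∀ i, 0 ≤ w i) (hs : ∑ i, w i = 1)
    (mv : I → G) (u : G)
    (hdom : ∀ ψ : AddChar G ℂ, ψ u ≠ 1 → ‖∑ i, (w i : ℂ) * ψ (mv i)‖ ≤ 3 / 4) (φ : G → ℝ) :
    ∑ g, (φ g - φ (g + u)) ^ 2 ≤ 8 * ∑ i, w i * ∑ g, (φ g - φ (g + mv i)) ^ 2 := by
  have hc : (0 : ℝ) < Fintype.card G := by exact_mod_cast Fintype.card_pos
  refine le_of_mul_le_mul_left ?_ hc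
  rw [sq_fourier]
  have : (Fintype.card G : ℝ) * (8 * ∑ i, w i * ∑ g, (φ g - φ (g + mv i)) ^ 2)
      = 2 * ∑ ψ : AddChar G ℂ, ‖∑ g, (φ g : ℂ) * ψ g‖ ^ 2 *
          (8 * (1 - (∑ i, (w i : ℂ) * ψ (mv i)).re)) := by
    have e : ∀ i, (Fintype.card G : ℝ) * (w i * ∑ g, (φ g - φ (g + mv i)) ^ 2)
        = w i * (2 * ∑ ψ : AddChar G ℂ, ‖∑ g, (φ g : ℂ) * ψ g‖ ^ 2 * (1 - (ψ (mv i)).re)) := by
      intro i; rw [← sq_fourier]; ring
    rw [mul_left_comm, mul_sum]
    simp_rw [e, Complex.re_sum, Complex.re_ofReal_mul]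
    simp_rw [mul_sum]
    rw [sum_comm]
    refine sum_congr rfl fun ψ _ => ?_
    have e2 : (1 : ℝ) - ∑ i, w i * (ψ (mv i)).re = ∑ i, w i * (1 - (ψ (mv i)).re) := by
      simp_rw [mul_sub, mul_one, sum_sub_distrib, hs]
    rw [e2]
    simp_rw [mul_sum]
    exact sum_congr rfl fun i _ => by ring
  rw [this]
  refine mul_le_mul_of_nonneg_left (sum_le_sum fun ψ _ => ?_) (by norm_num)
  refine mul_le_mul_of_nonneg_left ?_ (by positivity)
  by_cases h : ψ u = 1
  · have h1 : ‖∑ i, (w i : ℂ) * ψ (mv i)‖ ≤ 1 := by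
      refine (norm_sum_le _ _).trans ?_
      rw [← hs]
      refine sum_le_sum fun i _ => ?_
      rw [norm_mul, AddChar.norm_apply, Complex.norm_real, Real.norm_of_nonneg (hw i), mul_one]
    have := (Complex.re_le_norm _).trans h1
    rw [h]; simp only [Complex.one_re]; linarith
  · have h1 := (Complex.re_le_norm _).trans (hdom ψ h)
    have h2 : -1 ≤ (ψ u).re := by
      have := Complex.abs_re_le_norm (ψ u)
      rw [AddChar.norm_apply] at this
      exact (abs_le.1 this).1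
    linarith

open MeasureTheory in
lemma abs_eq_integral (a b : ℝ) :
    Integrable (fun t : ℝ => ((if t < a then (1 : ℝ) else 0) - (if t < b then 1 else 0)) ^ 2) ∧
    ∫ t : ℝ, ((if t < a then (1 : ℝ) else 0) - (if t < b then 1 else 0)) ^ 2 = |a - b| := by
  have key : ∀ a b : ℝ, a ≤ b →
      (fun t : ℝ => ((if t < a then (1 : ℝ) else 0) - (if t < b then 1 else 0)) ^ 2)
        = Set.indicator (Set.Ico a b) (fun _ => 1) := by
    intro a b hab
    funext t
    by_cases h1 : t < a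
    · have h2 : t < b := h1.trans_le hab
      simp [h1, h2, Set.indicator, not_le.2 h1]
    · by_cases h2 : t < b
      · simp [h1, h2, Set.indicator, not_lt.1 h1]
      · simp [h1, h2, Set.indicator]
  have fin : ∀ a b : ℝ, a ≤ b → Integrable (Set.indicator (Set.Ico a b) (fun _ => (1 : ℝ))) ∧
      ∫ t, Set.indicator (Set.Ico a b) (fun _ => (1 : ℝ)) t = b - a := by
    intro a b hab
    constructor
    · rw [integrable_indicator_iff measurableSet_Ico]
      exact integrableOn_const (by simp)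
    · rw [integral_indicator measurableSet_Ico]
      simp [hab]
  rcases le_total a b with h | h
  · rw [key a b h, abs_of_nonpos (by linarith)]
    simpa using fin a b h
  · have : (fun t : ℝ => ((if t < a then (1 : ℝ) else 0) - (if t < b then 1 else 0)) ^ 2)
        = fun t : ℝ => ((if t < b then (1 : ℝ) else 0) - (if t < a then 1 else 0)) ^ 2 := by
      funext t; ring
    rw [this, key b a h, abs_of_nonneg (by linarith)]
    exact fin b a h

open MeasureTheory in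
lemma poincare_abs {I : Type} [Fintype I] (w : I → ℝ) (hw : ∀ i, 0 ≤ w i) (hs : ∑ i, w i = 1)
    (mv : I → G) (u : G)
    (hdom : ∀ ψ : AddChar G ℂ, ψ u ≠ 1 → ‖∑ i, (w i : ℂ) * ψ (mv i)‖ ≤ 3 / 4) (φ : G → ℝ) :
    ∑ g, |φ g - φ (g + u)| ≤ 8 * ∑ i, w i * ∑ g, |φ g - φ (g + mv i)| := by
  set F : G → G → ℝ → ℝ := fun g h t =>
    ((if t < φ g then (1 : ℝ) else 0) - (if t < φ h then 1 else 0)) ^ 2 with hF
  have hi : ∀ g h, Integrable (F g h) := fun g h => (abs_eq_integral _ _).1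
  have he : ∀ g h, |φ g - φ h| = ∫ t, F g h t := fun g h => (abs_eq_integral _ _).2.symm
  simp_rw [he]
  have hi2 : ∀ a, Integrable (fun t => ∑ g, F g (g + a) t) :=
    fun a => integrable_finsetSum _ fun g _ => hi _ _
  have e1 : ∀ a, ∑ g, ∫ t, F g (g + a) t = ∫ t, ∑ g, F g (g + a) t :=
    fun a => (integral_finsetSum _ fun g _ => hi _ _).symm
  simp_rw [e1, ← integral_const_mul]
  rw [← integral_finsetSum _ fun i _ => (hi2 _).const_mul _, ← integral_const_mul]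
  refine integral_mono (hi2 _)
    ((integrable_finsetSum _ fun i _ => (hi2 _).const_mul _).const_mul _) fun t => ?_
  exact poincare_sq w hw hs mv u hdom (fun g => if t < φ g then (1 : ℝ) else 0)

lemma lp_norm_hasSum (x : lp (fun _ : ℕ => ℝ) 1) : HasSum (fun k => |x k|) ‖x‖ := by
  have := lp.hasSum_norm (p := 1) (by simp) x
  simpa using this

lemma poincare_l1 {I : Type} [Fintype I] (w : I → ℝ) (hw : ∀ i, 0 ≤ w i) (hs : ∑ i, w i = 1)
    (mv : I → G) (u : G)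
    (hdom : ∀ ψ : AddChar G ℂ, ψ u ≠ 1 → ‖∑ i, (w i : ℂ) * ψ (mv i)‖ ≤ 3 / 4)
    (F : G → lp (fun _ : ℕ => ℝ) 1) :
    ∑ g, ‖F g - F (g + u)‖ ≤ 8 * ∑ i, w i * ∑ g, ‖F g - F (g + mv i)‖ := by
  have h1 : ∀ a, HasSum (fun k => ∑ g, |F g k - F (g + a) k|) (∑ g, ‖F g - F (g + a)‖) := by
    intro a
    refine hasSum_sum fun g _ => ?_
    simpa using lp_norm_hasSum (F g - F (g + a))
  refine hasSum_le (fun k => poincare_abs w hw hs mv u hdom (fun g => F g k)) (h1 u) ?_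
  exact (hasSum_sum fun i _ => (h1 (mv i)).mul_left (w i)).mul_left 8

end Vale.Agent.P238
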