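import Vale.Agent.P238.Gadget

namespace Vale.Agent.P238

open List

section step

variable {M n K N : ℕ} {c η : ℝ} {p : ℕ → ℕ}

/-- the diagonal generator -/
def diagGen (D : ∀ j : Fin N, Gadget (M * p j) n K c η) : ∀ j, (D j).G := fun j => (D j).u

def blk2 (D : ∀ j : Fin N, Gadget (M * p j) n K c η) (g : ∀ j, (D j).G) (u : ℕ) (j : Fin N) :
    List ℕ := ((D j).E ((g + u • diagGen D) j)).map (fun s => N * s + j)

def blk (hN : 0 < N) (D : ∀ j : Fin N, Gadget (M * p j) n K c η) (g : ∀ j, (D j).G) (i : ℕ) :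
    List ℕ := blk2 D g (i / N) ⟨i % N, Nat.mod_lt _ hN⟩

lemma blk_len (hN : 0 < N) (D : ∀ j : Fin N, Gadget (M * p j) n K c η) (g : ∀ j, (D j).G)
    (i : ℕ) : (blk hN D g i).length = n := by
  simp [blk, blk2, Gadget.len]

lemma blk_shift (hN : 0 < N) (D : ∀ j : Fin N, Gadget (M * p j) n K c η) (g : ∀ j, (D j).G)
    (t : ℕ) : blk hN D (g + t • diagGen D) = fun i => blk hN D g (i + t * N) := by
  funext i
  have e1 : (i + t * N) / N = i / N + t := Nat.add_mul_div_right i t hN
  have e2 : (⟨(i + t * N) % N, Nat.mod_lt _ hN⟩ : Fin N) = ⟨i % N, Nat.mod_lt _ hN⟩ := by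
    ext; simp
  simp only [blk]
  rw [e1, e2]
  simp only [blk2]
  rw [add_nsmul, add_assoc, add_comm (t • diagGen D)]

lemma tag_inj (hN : 0 < N) (j : ℕ) : Function.Injective (fun s => N * s + j) := by
  intro a b h
  simp only at h
  exact Nat.eq_of_mul_eq_mul_left hN (by omega)

lemma blk_far (b : ℕ) (hN : 8 ≤ N) (hb : 4 ≤ b) (hc0 : 0 ≤ c) (hc : c ≤ 1 / 4)
    (hp2 : ∀ j < N, 2 ≤ p j) (hpp : ∀ i < N, ∀ j < N, i ≠ j → Nat.Coprime (p i) (p j))
    (hpM : ∀ j < N, Nat.Coprime M (p j)) (hbN : b ^ 2 ≤ 2 ^ N) (hN0 : 0 < N)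
    (D : ∀ j : Fin N, Gadget (M * p j) n K c η) (g : ∀ j, (D j).G) (s : ℤ) (hs : ¬ (M : ℤ) ∣ s)
    (z : List ℕ) (h1 : z <+ cat (blk hN0 D g) 0 (b * N))
    (h2 : z <+ cat (blk hN0 D (g + s • ((∏ j : Fin N, p j) • diagGen D))) 0 (b * N)) :
    (z.length : ℝ) ≤ (1 - c / 4) * ((b * N * n : ℕ) : ℝ) := by
  classical
  have := far_concat _ _ N b hN hb n c (by positivity) hc0 hc
    (fun t j => if t ≠ 0 ∧ |t| < b ∧ (p j : ℤ) ∣ t then (1 : ℝ) else 0)
    (fun t j => by split_ifs <;> norm_num) (fun t j => by split_ifs <;> norm_num)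
    (count_dvd N b p hp2 hpp hbN) ?_ ?_ z h1 h2
  · push_cast; exact this
  · intro i i' hne y hy hy'
    rcases y with _ | ⟨a, y⟩
    · rfl
    · exfalso
      have m1 := hy.subset (mem_cons_self)
      have m2 := hy'.subset (mem_cons_self)
      simp only [blk, blk2, mem_map] at m1 m2
      obtain ⟨s1, _, e1⟩ := m1
      obtain ⟨s2, _, e2⟩ := m2
      apply hne
      have := congrArg (· % N) (e1.trans e2.symm)
      simpa using this
  · intro i i' hi hi' he y hy hy'
    have e2 : (⟨i' % N, Nat.mod_lt _ hN0⟩ : Fin N) = ⟨i % N, Nat.mod_lt _ hN0⟩ := by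
      ext; exact he.symm
    simp only [blk] at hy hy'
    rw [e2] at hy'
    set j : Fin N := ⟨i % N, Nat.mod_lt _ hN0⟩ with hj
    simp only [blk2] at hy hy'
    obtain ⟨y', k1, k2, k3⟩ := common_map (tag_inj hN0 j) hy hy'
    rw [← k3]
    set t : ℤ := ((i' / N : ℕ) : ℤ) - ((i / N : ℕ) : ℤ) with ht
    have e3 : (g + s • ((∏ j : Fin N, p j) • diagGen D) + (i' / N) • diagGen D) j
        = (g + (i / N) • diagGen D) j + (s * (∏ j : Fin N, p j : ℕ) + t) • (D j).u := by
      simp only [Pi.add_apply, Pi.smul_apply, diagGen, ht, add_zsmul, sub_zsmul, mul_zsmul,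
        natCast_zsmul]
      abel
    rw [e3] at k2
    have hnn : (0 : ℝ) ≤ n := by positivity
    by_cases hd : ((M * p j : ℕ) : ℤ) ∣ s * (∏ j : Fin N, p j : ℕ) + t
    · have hl : (y'.length : ℝ) ≤ n := by
        have := k1.length_le; rw [(D j).len] at this; exact_mod_cast this
      have hpj : (p j : ℤ) ∣ ((∏ j : Fin N, p j : ℕ) : ℤ) :=
        Int.natCast_dvd_natCast.2 (Finset.dvd_prod_of_mem _ (Finset.mem_univ j))
      have d1 : (p j : ℤ) ∣ t := by
        have : (p j : ℤ) ∣ s * (∏ j : Fin N, p j : ℕ) + t :=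
          (Int.natCast_dvd_natCast.2 (Dvd.intro_left M rfl)).trans hd
        exact (dvd_add_right (hpj.mul_left s)).1 this
      have d2 : t ≠ 0 := by
        intro h0
        apply hs
        rw [h0, add_zero] at hd
        have h3 : (M : ℤ) ∣ s * (∏ j : Fin N, p j : ℕ) :=
          (Int.natCast_dvd_natCast.2 (Dvd.intro _ rfl)).trans hd
        have h4 : IsCoprime (M : ℤ) ((∏ j : Fin N, p j : ℕ) : ℤ) :=
          Nat.isCoprime_iff_coprime.2 (Nat.Coprime.prod_right fun j _ => hpM j j.2)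
        exact h4.dvd_of_dvd_mul_right h3
      have d3 : |t| < b := by
        have a1 : i / N < b := Nat.div_lt_of_lt_mul (by rw [mul_comm]; exact hi)
        have a2 : i' / N < b := Nat.div_lt_of_lt_mul (by rw [mul_comm]; exact hi')
        rw [ht, abs_lt]
        generalize i / N = x at *
        generalize i' / N = x' at *
        omega
      rw [if_pos ⟨d2, d3, d1⟩]; linarith
    · have := (D j).far _ _ hd y' k1 k2
      have h0 : (0 : ℝ) ≤ c * (if t ≠ 0 ∧ |t| < b ∧ (p (i % N) : ℤ) ∣ t then (1 : ℝ) else 0) := by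
        refine mul_nonneg hc0 ?_; split_ifs <;> norm_num
      nlinarith

/-- lazy weights -/
noncomputable def ow (D : Gadget M n K c η) (ρ : ℝ) : Option D.I → ℝ
  | none => 1 - ρ
  | some i => ρ * D.w i

def omv (D : Gadget M n K c η) : Option D.I → D.G
  | none => 0
  | some i => D.mv i

noncomputable def ocost (D : Gadget M n K c η) : Option D.I → ℝ
  | none => 0
  | some i => D.cost i

lemma ow_nonneg (D : Gadget M n K c η) {ρ : ℝ} (h0 : 0 ≤ ρ) (h1 : ρ ≤ 1) (o : Option D.I) :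
    0 ≤ ow D ρ o := by
  cases o with
  | none => simp [ow]; linarith
  | some i => exact mul_nonneg h0 (D.w_nonneg i)

lemma ow_sum (D : Gadget M n K c η) (ρ : ℝ) : ∑ o, ow D ρ o = 1 := by
  simp [Fintype.sum_option, ow, ← Finset.mul_sum, D.w_sum]

lemma ow_cost (D : Gadget M n K c η) {ρ : ℝ} (h0 : 0 ≤ ρ) :
    ∑ o, ow D ρ o * ocost D o ≤ ρ * (η * n) := by
  simp only [Fintype.sum_option, ow, ocost, mul_zero, zero_add, mul_assoc, ← Finset.mul_sum]
  exact mul_le_mul_of_nonneg_left D.avg h0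

lemma oclose (D : Gadget M n K c η) (g : D.G) (o : Option D.I) :
    ∃ z, z <+ D.E g ∧ z <+ D.E (g + omv D o) ∧ (n : ℝ) ≤ z.length + ocost D o := by
  cases o with
  | none => exact ⟨D.E g, Sublist.refl _, by simp [omv], by simp [ocost, D.len]⟩
  | some i => exact D.close g i

lemma ochar_le_one (D : Gadget M n K c η) {ρ : ℝ} (h0 : 0 ≤ ρ) (h1 : ρ ≤ 1) (ψ : AddChar D.G ℂ) :
    ‖∑ o, (ow D ρ o : ℂ) * ψ (omv D o)‖ ≤ 1 := by
  refine (norm_sum_le _ _).trans ?_
  rw [← ow_sum D ρ]
  refine Finset.sum_le_sum fun o _ => ?_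
  rw [norm_mul, AddChar.norm_apply, Complex.norm_real, Real.norm_of_nonneg (ow_nonneg D h0 h1 o),
    mul_one]

lemma ochar_le (D : Gadget M n K c η) {ρ : ℝ} (h0 : 0 ≤ ρ) (h1 : ρ ≤ 1) (ψ : AddChar D.G ℂ)
    (hψ : ψ D.u ≠ 1) : ‖∑ o, (ow D ρ o : ℂ) * ψ (omv D o)‖ ≤ 1 - ρ / 4 := by
  have e : ∑ o, (ow D ρ o : ℂ) * ψ (omv D o)
      = ((1 - ρ : ℝ) : ℂ) + (ρ : ℂ) * ∑ i, (D.w i : ℂ) * ψ (D.mv i) := by
    simp [Fintype.sum_option, ow, omv, Finset.mul_sum, mul_assoc]
  rw [e]
  refine (norm_add_le _ _).trans ?_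
  rw [norm_mul, Complex.norm_real, Complex.norm_real, Real.norm_of_nonneg h0,
    Real.norm_of_nonneg (by linarith)]
  have := mul_le_mul_of_nonneg_left (D.dom ψ hψ) h0
  linarith

lemma prod_expect {ι : Type} [Fintype ι] [DecidableEq ι] {κ : ι → Type} [∀ j, Fintype (κ j)]
    (w f : ∀ j, κ j → ℝ) (hw : ∀ j, ∑ x, w j x = 1) (j0 : ι) :
    ∑ ω : ∀ j, κ j, (∏ j, w j (ω j)) * f j0 (ω j0) = ∑ x, w j0 x * f j0 x := by
  have h := Finset.prod_univ_sum (fun j => (Finset.univ : Finset (κ j)))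
    (fun j x => w j x * (if j = j0 then f j x else 1))
  rw [Fintype.piFinset_univ] at h
  have e1 : ∀ ω : ∀ j, κ j, ∏ j, (w j (ω j) * (if j = j0 then f j (ω j) else 1))
      = (∏ j, w j (ω j)) * f j0 (ω j0) := by
    intro ω; rw [Finset.prod_mul_distrib]; simp
  simp only [e1] at h
  rw [← h, Finset.prod_eq_single j0]
  · simp
  · intro j _ hj; simp [hj, hw]
  · simp

lemma gadget_step (b T W P : ℕ) (η' : ℝ) (hM : 0 < M) (hN : 8 ≤ N) (hb : 4 ≤ b) (hc0 : 0 ≤ c)
    (hc : c ≤ 1 / 4) (hp2 : ∀ j < N, 2 ≤ p j) (hpP : ∀ j < N, p j ≤ P)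
    (hpp : ∀ i < N, ∀ j < N, i ≠ j → Nat.Coprime (p i) (p j))
    (hpM : ∀ j < N, Nat.Coprime M (p j)) (hbN : b ^ 2 ≤ 2 ^ N) (hW : 4 ≤ W)
    (hT : 2 * (M * P ^ W) ≤ T) (hTb : T ≤ b) (hη : T / (2 * b) + 2 * η / W ≤ η')
    (D : ∀ j : Fin N, Gadget (M * p j) n K c η) :
    Nonempty (Gadget M (b * N * n) (N * K) (c / 4) η') := by
  classical
  have hN0 : 0 < N := by omega
  have hP : 0 < P := by have := hp2 0 hN0; have := hpP 0 hN0; omega
  have hT0 : 0 < T := lt_of_lt_of_le (by positivity) hT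
  have hTr : (0 : ℝ) < T := by exact_mod_cast hT0
  have hWr : (4 : ℝ) ≤ W := by exact_mod_cast hW
  have hbr : (4 : ℝ) ≤ b := by exact_mod_cast hb
  set ρ : ℝ := 4 / W with hρ
  have hρ0 : 0 ≤ ρ := by positivity
  have hρ1 : ρ ≤ 1 := by rw [hρ, div_le_one (by linarith)]; exact hWr
  have hlen : ∀ g, (cat (blk hN0 D g) 0 (b * N)).length = b * N * n := by
    intro g; rw [cat_length]; simp [blk_len]
  refine ⟨{
    G := ∀ j, (D j).G
    u := (∏ j : Fin N, p j) • diagGen D
    E := fun g => cat (blk hN0 D g) 0 (b * N)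
    I := Fin T ⊕ (∀ j, Option (D j).I)
    w := Sum.elim (fun _ => 1 / (2 * T)) (fun ω => 1 / 2 * ∏ j, ow (D j) ρ (ω j))
    mv := Sum.elim (fun t => (t : ℕ) • diagGen D) (fun ω j => omv (D j) (ω j))
    cost := Sum.elim (fun _ => T * N * n) (fun ω => b * ∑ j, ocost (D j) (ω j))
    hu := ?_, len := hlen, lt := ?_
    far := fun g s hs z h1 h2 => blk_far b hN hb hc0 hc hp2 hpp hpM hbN hN0 D g s hs z h1 h2
    w_nonneg := ?_, w_sum := ?_, close := ?_, avg := ?_, dom := ?_ }⟩
  · funext j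
    obtain ⟨k, hk⟩ := Finset.dvd_prod_of_mem (fun j : Fin N => p j) (Finset.mem_univ j)
    simp only [Pi.smul_apply, diagGen, Pi.zero_apply]
    rw [hk, ← mul_nsmul', ← mul_assoc, mul_comm _ k, mul_nsmul', (D j).hu, nsmul_zero]
  · intro g s hs
    obtain ⟨i, hi⟩ := mem_cat hs
    simp only [blk, blk2, mem_map] at hi
    obtain ⟨s', h1, rfl⟩ := hi
    have h2 := (D _).lt _ _ h1
    have h3 := Nat.mod_lt i hN0
    calc N * s' + i % N < N * (s' + 1) := by rw [mul_add]; omega
      _ ≤ N * K := Nat.mul_le_mul_left _ h2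
  · rintro (t | ω)
    · simp only [Sum.elim_inl]; positivity
    · simp only [Sum.elim_inr]
      exact mul_nonneg (by norm_num) (Finset.prod_nonneg fun j _ => ow_nonneg _ hρ0 hρ1 _)
  · rw [Fintype.sum_sum_type]
    simp only [Sum.elim_inl, Sum.elim_inr, ← Finset.mul_sum]
    have h := Finset.prod_univ_sum (fun j => (Finset.univ : Finset (Option (D j).I)))
      (fun j x => ow (D j) ρ x)
    rw [Fintype.piFinset_univ] at h
    rw [← h]
    simp only [ow_sum, Finset.prod_const_one, Finset.sum_const, Finset.card_univ,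
      Fintype.card_fin, nsmul_eq_mul]
    field_simp; norm_num
  · rintro g (t | ω)
    · simp only [Sum.elim_inl]
      have htb : (t : ℕ) ≤ b := t.2.le.trans hTb
      obtain ⟨r, hr⟩ : ∃ r, b = t + r := ⟨b - t, by omega⟩
      refine ⟨cat (blk hN0 D g) (t * N) (r * N), ?_, ?_, ?_⟩
      · rw [hr, add_mul, cat_add, zero_add]; exact sublist_append_right _ _
      · rw [blk_shift, cat_shift, zero_add, hr, add_comm, add_mul, cat_add]
        exact sublist_append_left _ _
      · rw [cat_length]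
        simp only [blk_len, Finset.sum_const, Finset.card_range, smul_eq_mul]
        have : b * N * n ≤ r * N * n + T * N * n := by
          rw [← add_mul, ← add_mul]
          have := t.2
          gcongr; omega
        exact_mod_cast this
    · simp only [Sum.elim_inr]
      have hz : ∀ i, ∃ z, z <+ blk hN0 D g i ∧ z <+ blk hN0 D (g + fun j => omv (D j) (ω j)) i ∧
          (n : ℝ) ≤ z.length + ocost (D ⟨i % N, Nat.mod_lt _ hN0⟩) (ω _) := by
        intro i
        obtain ⟨z, h1, h2, h3⟩ := oclose (D ⟨i % N, Nat.mod_lt _ hN0⟩)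
          ((g + (i / N) • diagGen D) _) (ω _)
        refine ⟨z.map (fun s => N * s + i % N), h1.map _, ?_, by simpa using h3⟩
        simp only [blk, blk2]
        refine Sublist.map _ ?_
        convert h2 using 2
        simp only [Pi.add_apply]; abel
      choose Z h1 h2 h3 using hz
      refine ⟨cat Z 0 (b * N), cat_sublist _ _ h1 _ _, cat_sublist _ _ h2 _ _, ?_⟩
      rw [cat_length, ← sum_mod hN0 (fun j => ocost (D j) (ω j)) b]
      push_cast
      rw [← Finset.sum_add_distrib]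
      have := Finset.sum_le_sum (s := Finset.range (b * N)) fun i _ => h3 i
      simpa using this
  · rw [Fintype.sum_sum_type]
    simp only [Sum.elim_inl, Sum.elim_inr]
    have e : ∑ ω : ∀ j, Option (D j).I,
        1 / 2 * (∏ j, ow (D j) ρ (ω j)) * (b * ∑ j, ocost (D j) (ω j))
        = b / 2 * ∑ j, ∑ o, ow (D j) ρ o * ocost (D j) o := by
      simp_rw [← prod_expect (fun j => ow (D j) ρ) (fun j => ocost (D j)) (fun j => ow_sum _ _)]
      rw [Finset.sum_comm, Finset.mul_sum]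
      refine Finset.sum_congr rfl fun ω _ => ?_
      rw [← Finset.mul_sum]; ring
    rw [e]
    have h1 : ∑ j, ∑ o, ow (D j) ρ o * ocost (D j) o ≤ N * (ρ * (η * n)) := by
      have := Finset.sum_le_sum (s := (Finset.univ : Finset (Fin N))) fun j _ => ow_cost (D j) hρ0
      simpa using this
    have h2 := mul_le_mul_of_nonneg_left h1 (show (0 : ℝ) ≤ b / 2 by positivity)
    have h3 := mul_le_mul_of_nonneg_right hη (show (0 : ℝ) ≤ b * N * n by positivity)
    simp only [Finset.sum_const, Finset.card_univ, Fintype.card_fin, nsmul_eq_mul]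
    have e1 : (T : ℝ) * (1 / (2 * T) * (T * N * n)) + b / 2 * (N * (ρ * (η * n)))
        = (T / (2 * b) + 2 * η / W) * (b * N * n) := by
      rw [hρ]; field_simp; ring
    push_cast
    linarith
  · intro ψ hψ
    let χ : ∀ j, AddChar (D j).G ℂ := fun j =>
      ψ.compAddMonoidHom (AddMonoidHom.single (fun j => (D j).G) j)
    have hχ : ∀ g : ∀ j, (D j).G, ψ g = ∏ j, χ j (g j) := by
      intro g
      conv_lhs => rw [← Finset.univ_sum_single g]
      rw [addChar_sum]; rfl
    set ω0 := ψ (diagGen D) with hω0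
    have hne : ω0 ≠ 1 := by
      intro h; apply hψ; rw [AddChar.map_nsmul_eq_pow, ← hω0, h, one_pow]
    set S := Finset.univ.filter (fun j : Fin N => χ j (D j).u ≠ 1) with hS
    rw [Fintype.sum_sum_type]
    simp only [Sum.elim_inl, Sum.elim_inr]
    have eA : ∑ t : Fin T, ((1 / (2 * T) : ℝ) : ℂ) * ψ ((t : ℕ) • diagGen D)
        = ((1 / (2 * T) : ℝ) : ℂ) * ∑ t ∈ Finset.range T, ω0 ^ t := by
      rw [Finset.sum_range, Finset.mul_sum]
      exact Finset.sum_congr rfl fun t _ => by rw [AddChar.map_nsmul_eq_pow]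
    have eB : ∑ ω : ∀ j, Option (D j).I, ((1 / 2 * ∏ j, ow (D j) ρ (ω j) : ℝ) : ℂ) *
          ψ (fun j => omv (D j) (ω j))
        = ((1 / 2 : ℝ) : ℂ) * ∏ j, ∑ o, (ow (D j) ρ o : ℂ) * χ j (omv (D j) o) := by
      rw [Finset.prod_univ_sum, Fintype.piFinset_univ, Finset.mul_sum]
      refine Finset.sum_congr rfl fun ω _ => ?_
      rw [hχ, Finset.prod_mul_distrib]; push_cast; ring
    rw [eA, eB]
    refine (norm_add_le _ _).trans ?_
    rw [norm_mul, norm_mul, Complex.norm_real, Complex.norm_real,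
      Real.norm_of_nonneg (by positivity), Real.norm_of_nonneg (by positivity), norm_prod]
    have hn0 : ‖ω0‖ = 1 := AddChar.norm_apply _ _
    by_cases hcard : S.card ≤ W
    · have hB : ∏ j, ‖∑ o, (ow (D j) ρ o : ℂ) * χ j (omv (D j) o)‖ ≤ 1 :=
        Finset.prod_le_one (fun _ _ => norm_nonneg _) fun j _ => ochar_le_one _ hρ0 hρ1 _
      set o := M * ∏ j ∈ S, p j with ho
      have ho0 : 0 < o := Nat.mul_pos hM (Finset.prod_pos fun j _ => by have := hp2 j j.2; omega)
      have hpow : ω0 ^ o = 1 := by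
        rw [hω0, hχ, ← Finset.prod_pow]
        refine Finset.prod_eq_one fun j _ => ?_
        by_cases hj : j ∈ S
        · obtain ⟨k, hk⟩ := Finset.dvd_prod_of_mem (fun j : Fin N => p j) hj
          rw [ho, hk, ← mul_assoc, pow_mul, ← AddChar.map_nsmul_eq_pow]
          simp only [diagGen]
          rw [(D j).hu]; simp
        · have : χ j (D j).u = 1 := by simpa [hS] using hj
          simp only [diagGen]
          rw [this, one_pow]
      have hA := geom_norm_le ω0 o ho0 hpow hne hn0 T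
      have hoT : 2 * o ≤ T := by
        refine le_trans ?_ hT
        have : ∏ j ∈ S, p j ≤ P ^ W :=
          (Finset.prod_le_pow_card S (fun j : Fin N => p j) P fun j _ => hpP j j.2).trans
            (Nat.pow_le_pow_right hP hcard)
        rw [ho]; gcongr
      have hoT' : (2 : ℝ) * o ≤ T := by exact_mod_cast hoT
      have : 1 / (2 * (T : ℝ)) * ‖∑ t ∈ Finset.range T, ω0 ^ t‖ ≤ 1 / 4 := by
        rw [one_div_mul_eq_div, div_le_iff₀ (by positivity)]; linarith
      linarith
    · have hA : ‖∑ t ∈ Finset.range T, ω0 ^ t‖ ≤ T := by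
        refine (norm_sum_le _ _).trans ?_
        simp [norm_pow, hn0]
      have hA' : 1 / (2 * (T : ℝ)) * ‖∑ t ∈ Finset.range T, ω0 ^ t‖ ≤ 1 / 2 := by
        rw [one_div_mul_eq_div, div_le_iff₀ (by positivity)]; linarith
      have h0 : (0 : ℝ) ≤ 1 - 1 / W := by
        rw [sub_nonneg, div_le_one (by linarith)]; linarith
      have hB : ∏ j, ‖∑ o, (ow (D j) ρ o : ℂ) * χ j (omv (D j) o)‖ ≤ 1 / 2 := by
        calc _ ≤ ∏ j : Fin N, (if j ∈ S then (1 - 1 / W : ℝ) else 1) := by
              refine Finset.prod_le_prod (fun _ _ => norm_nonneg _) fun j _ => ?_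
              split_ifs with hj
              · have := ochar_le (D j) hρ0 hρ1 (χ j) (by simpa [hS] using hj)
                rw [hρ] at this ⊢
                refine this.trans (le_of_eq ?_); ring
              · exact ochar_le_one _ hρ0 hρ1 _
          _ = (1 - 1 / W : ℝ) ^ S.card := by
              rw [Finset.prod_ite_mem, Finset.univ_inter, Finset.prod_const]
          _ ≤ (1 - 1 / W : ℝ) ^ W := by
              refine pow_le_pow_of_le_one h0 ?_ (by omega)
              have : (0 : ℝ) ≤ 1 / W := by positivity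
              linarith
          _ ≤ 1 / 2 := one_sub_pow_le W (by omega)
      linarith

end step

end Vale.Agent.P238
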