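import Vale.Agent.P238.Edit
import Vale.Agent.P238.Poincare
import Vale.Agent.P238.Step
import Vale.Agent.P238.Binary

namespace Vale.Agent.P238

open List

lemma gadget_iter (L N b T W P Mx : ℕ) (p : ℕ → ℕ) (hN : 8 ≤ N) (hb : 4 ≤ b)
    (hp2 : ∀ j < L * N, 2 ≤ p j) (hpP : ∀ j < L * N, p j ≤ P)
    (hpp : ∀ i j, i ≠ j → Nat.Coprime (p i) (p j)) (hbN : b ^ 2 ≤ 2 ^ N) (hW : 4 ≤ W)
    (hP : 0 < P) (hT : 2 * (Mx * P ^ W) ≤ T) (hTb : T ≤ b)
    (hη : (T : ℝ) / (2 * b) ≤ 2 * (4 / W) ^ L / W) (l : ℕ) :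
    l ≤ L → ∀ M, 0 < M → M * P ^ l ≤ Mx → (∀ i < l * N, Nat.Coprime M (p i)) →
      Nonempty (Gadget M ((b * N) ^ l) (N ^ l * Mx) ((1 / 4) ^ (l + 1)) ((4 / W) ^ l)) := by
  have hWr : (4 : ℝ) ≤ W := by exact_mod_cast hW
  induction l with
  | zero =>
    intro _ M hM h1 _
    simpa using gadget_base M Mx hM (by simpa using h1) (1 / 4) (by norm_num)
  | succ l ih =>
    intro hl M hM h1 h2
    have hidx : ∀ j < N, l * N + j < L * N := by
      intro j hj
      have : (l + 1) * N ≤ L * N := Nat.mul_le_mul_right _ hl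
      rw [add_mul] at this; omega
    have hD : ∀ j : Fin N, Nonempty (Gadget (M * p (l * N + j)) ((b * N) ^ l) (N ^ l * Mx)
        ((1 / 4) ^ (l + 1)) ((4 / W) ^ l)) := by
      intro j
      refine ih (by omega) _ (Nat.mul_pos hM (by have := hp2 _ (hidx j j.2); omega)) ?_ ?_
      · refine le_trans ?_ h1
        rw [pow_succ, mul_assoc, mul_comm (p _)]
        gcongr; exact hpP _ (hidx j j.2)
      · intro i hi
        exact Nat.Coprime.mul_left (h2 i (by rw [add_mul]; omega)) (hpp _ _ (by omega))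
    have hMx : M ≤ Mx := le_trans (Nat.le_mul_of_pos_right _ (by positivity)) h1
    have hq0 : (0 : ℝ) ≤ 4 / W := by positivity
    have hq1 : (4 : ℝ) / W ≤ 1 := by rw [div_le_one (by linarith)]; exact hWr
    have := gadget_step (p := fun j => p (l * N + j)) b T W P ((4 / W) ^ (l + 1)) hM hN hb
      (by positivity) (by
        rw [pow_succ]
        have : (1 / 4 : ℝ) ^ l ≤ 1 := pow_le_one₀ (by norm_num) (by norm_num)
        linarith)
      (fun j hj => hp2 _ (hidx j hj)) (fun j hj => hpP _ (hidx j hj))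
      (fun i _ j _ hij => hpp _ _ (by omega))
      (fun j hj => h2 _ (by rw [add_mul]; omega)) hbN hW
      (le_trans (by gcongr) hT) hTb (by
        have h3 : ((4 : ℝ) / W) ^ L ≤ (4 / W) ^ l := pow_le_pow_of_le_one hq0 hq1 (by omega)
        have h4 : 2 * ((4 : ℝ) / W) ^ L / W ≤ 2 * (4 / W) ^ l / W := by gcongr
        have h5 : ((4 : ℝ) / W) ^ (l + 1) = 2 * (4 / W) ^ l / W + 2 * (4 / W) ^ l / W := by
          rw [pow_succ]; ring
        linarith) (fun j => (hD j).some)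
    rw [pow_succ' (b * N), pow_succ' N, mul_assoc N, pow_succ (1 / 4 : ℝ) (l + 1), mul_one_div]
    exact this

lemma editDist_self {α : Type} (x : List α) : editDist x x = 0 := by
  have := editDist_le_of_common (Sublist.refl x) (Sublist.refl x); omega

lemma gadget_bound {M n0 K : ℕ} {c η : ℝ} (D : Gadget M n0 K c η) (hM : 2 ≤ M) (hn0 : 0 < n0)
    (k : ℕ) (hK : K ≤ 2 ^ k) (n : ℕ) (hn : (2 * k + 3) * n0 ≤ n)
    (f : (Fin n → Bool) → lp (fun _ : ℕ => ℝ) 1) (A B : ℝ) (hA : 0 ≤ A) (hB : 0 ≤ B)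
    (h1 : ∀ x y, ‖f x - f y‖ ≤ A * edCube x y) (h2 : ∀ x y, edCube x y ≤ B * ‖f x - f y‖) :
    c ≤ 32 * (2 * k + 3) * η * (A * B) := by
  set pad : List Bool := replicate (n - (2 * k + 3) * n0) false with hpad
  have hlen : ∀ g, (pad ++ enc k (D.E g)).length = n := by
    intro g; simp [hpad, length_enc, D.len]; omega
  let word : D.G → Fin n → Bool := fun g i => (pad ++ enc k (D.E g))[i.1]'(by rw [hlen]; exact i.2)
  have hw : ∀ g, ofFn (word g) = pad ++ enc k (D.E g) := by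
    intro g
    refine ext_getElem (by simp only [length_ofFn, hlen]) fun i _ _ => by simp [word]
  have hlt : ∀ g, ∀ s ∈ D.E g, s < 2 ^ k := fun g s hs => (D.lt g s hs).trans_le hK
  have far : ∀ g, c * n0 / 2 ≤ edCube (word g) (word (g + D.u)) := by
    intro g
    simp only [edCube, hw]
    obtain ⟨z, k1, k2, k3⟩ := exists_common (pad ++ enc k (D.E g)) (pad ++ enc k (D.E (g + D.u)))
    obtain ⟨z', k4, k5, k6⟩ := common_unpad _ _ _ _ k1 k2
    obtain ⟨ζ, k7, k8, k9⟩ := decode k _ _ (hlt _) (hlt _) z' k4 k5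
    have := D.far g 1 (by
      intro h; have := Int.le_of_dvd one_pos h; omega) ζ k7 (by simpa using k8)
    rw [length_append, length_enc, D.len] at k3
    rw [length_enc, length_enc, D.len, D.len] at k9
    have e : n0 ≤ ζ.length + 2 * editDist (pad ++ enc k (D.E g))
      (pad ++ enc k (D.E (g + D.u))) := by omega
    have e' : (n0 : ℝ) ≤ ζ.length + 2 * editDist (pad ++ enc k (D.E g))
      (pad ++ enc k (D.E (g + D.u))) := by exact_mod_cast e
    linarith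
  have close : ∀ g i, edCube (word g) (word (g + D.mv i)) ≤ 2 * (2 * k + 3) * D.cost i := by
    intro g i
    simp only [edCube, hw]
    obtain ⟨z, k1, k2, k3⟩ := D.close g i
    have := editDist_le_of_common ((Sublist.refl pad).append (enc_sublist k k1))
      ((Sublist.refl pad).append (enc_sublist k k2))
    simp only [length_append, length_enc, D.len] at this
    have e : editDist (pad ++ enc k (D.E g)) (pad ++ enc k (D.E (g + D.mv i)))
      + 2 * ((2 * k + 3) * z.length) ≤ 2 * ((2 * k + 3) * n0) := by omega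
    have e' : (editDist (pad ++ enc k (D.E g)) (pad ++ enc k (D.E (g + D.mv i))) : ℝ)
      + 2 * ((2 * k + 3) * z.length) ≤ 2 * ((2 * k + 3) * n0) := by exact_mod_cast e
    have := mul_le_mul_of_nonneg_left k3 (show (0 : ℝ) ≤ 2 * k + 3 by positivity)
    nlinarith
  have P := poincare_l1 D.w D.w_nonneg D.w_sum D.mv D.u D.dom (fun g => f (word g))
  have hc : (0 : ℝ) < Fintype.card D.G := by exact_mod_cast Fintype.card_pos
  have hn0r : (0 : ℝ) < n0 := by exact_mod_cast hn0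
  have s1 : (Fintype.card D.G : ℝ) * (c * n0 / 2) ≤ B * ∑ g, ‖f (word g) - f (word (g + D.u))‖ := by
    rw [Finset.mul_sum]
    have := Finset.sum_le_sum (s := Finset.univ) fun g _ => (far g).trans (h2 _ _)
    simpa using this
  have s2 : ∑ i, D.w i * ∑ g, ‖f (word g) - f (word (g + D.mv i))‖
      ≤ (Fintype.card D.G * A * (2 * (2 * k + 3))) * ∑ i, D.w i * D.cost i := by
    rw [Finset.mul_sum]
    refine Finset.sum_le_sum fun i _ => ?_
    have := Finset.sum_le_sum (s := Finset.univ) fun g _ =>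
      (h1 _ _).trans (mul_le_mul_of_nonneg_left (close g i) hA)
    simp only [Finset.sum_const, Finset.card_univ, nsmul_eq_mul] at this
    have := mul_le_mul_of_nonneg_left this (D.w_nonneg i)
    linarith
  have s3 := mul_le_mul_of_nonneg_left D.avg
    (show (0 : ℝ) ≤ Fintype.card D.G * A * (2 * (2 * k + 3)) by positivity)
  have s4 := mul_le_mul_of_nonneg_left (P.trans (mul_le_mul_of_nonneg_left (s2.trans s3)
    (by norm_num))) hB
  have s5 := s1.trans s4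
  have : (Fintype.card D.G * n0 : ℝ) * c
      ≤ (Fintype.card D.G * n0) * (32 * (2 * k + 3) * η * (A * B)) := by linarith
  exact le_of_mul_le_mul_left this (by positivity)

lemma le_c1 (n : ℕ) (X : ℝ)
    (h : ∀ (f : (Fin n → Bool) → lp (fun _ : ℕ => ℝ) 1) (A B : ℝ), 0 ≤ A → 0 ≤ B →
      (∀ x y, ‖f x - f y‖ ≤ A * edCube x y) → (∀ x y, edCube x y ≤ B * ‖f x - f y‖) →
      X ≤ A * B) : X ≤ c1 n := by
  classical
  haveI : Nonempty {f : (Fin n → Bool) → lp (fun _ : ℕ => ℝ) 1 // Function.Injective f} := by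
    refine ⟨⟨fun x => lp.single 1 0 ((Fintype.equivFin _ x : ℕ) : ℝ), fun x y hxy => ?_⟩⟩
    have := congrArg (fun v : lp (fun _ : ℕ => ℝ) 1 => v 0) hxy
    simp only [lp.single_apply_self, Nat.cast_inj] at this
    exact (Fintype.equivFin _).injective (Fin.ext this)
  refine le_ciInf fun f => ?_
  have e0 : ∀ x y : Fin n → Bool, 0 ≤ edCube x y := fun x y => Nat.cast_nonneg _
  have epos : ∀ x y : Fin n → Bool, x ≠ y → 0 < edCube x y := by
    intro x y hxy
    refine Nat.cast_pos.2 (Nat.pos_of_ne_zero fun h0 => hxy ?_)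
    exact ofFn_injective (eq_of_editDist_zero h0)
  refine h f.1 _ _ (Real.iSup_nonneg fun p => div_nonneg (norm_nonneg _) (e0 _ _))
    (Real.iSup_nonneg fun p => div_nonneg (e0 _ _) (norm_nonneg _)) ?_ ?_
  · intro x y
    by_cases hxy : x = y
    · simp [hxy, edCube, editDist_self]
    · rw [← div_le_iff₀ (epos x y hxy)]
      exact le_ciSup (f := fun p : {p : (Fin n → Bool) × (Fin n → Bool) // p.1 ≠ p.2} =>
        ‖f.1 p.1.1 - f.1 p.1.2‖ / edCube p.1.1 p.1.2) (Set.finite_range _).bddAbove ⟨(x, y), hxy⟩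
  · intro x y
    by_cases hxy : x = y
    · simp [hxy, edCube, editDist_self]
    · rw [← div_le_iff₀ (norm_pos_iff.2 (sub_ne_zero.2 (f.2.ne hxy)))]
      exact le_ciSup (f := fun p : {p : (Fin n → Bool) × (Fin n → Bool) // p.1 ≠ p.2} =>
        edCube p.1.1 p.1.2 / ‖f.1 p.1.1 - f.1 p.1.2‖) (Set.finite_range _).bddAbove ⟨(x, y), hxy⟩

lemma many_primes (r m : ℕ) (hr : 1 ≤ r) (h : r * m + r + 1 ≤ 2 ^ r) (i : ℕ) (hi : i < m) :
    Nat.nth Nat.Prime i ≤ 2 ^ r := by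
  have h1 := Chebyshev.pi_ge (2 ^ r)
  have l2 : 0 < Real.log 2 := Real.log_pos (by norm_num)
  have hr' : (1 : ℝ) ≤ r := by exact_mod_cast hr
  have h2 : Real.log ((2 ^ r : ℕ) + 1) ≤ (r + 1) * Real.log 2 := by
    rw [show ((r : ℝ) + 1) = ((r + 1 : ℕ) : ℝ) by push_cast; ring, ← Real.log_pow]
    refine Real.log_le_log (by positivity) ?_
    have : (1 : ℝ) ≤ 2 ^ r := one_le_pow₀ (by norm_num)
    push_cast; rw [pow_succ]; linarith
  have h3 : Real.log ((2 ^ r : ℕ) : ℝ) = r * Real.log 2 := by push_cast; rw [Real.log_pow]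
  rw [h3, div_le_iff₀ (by positivity)] at h1
  have h' : (r : ℝ) * m + r + 1 ≤ ((2 ^ r : ℕ) : ℝ) := by exact_mod_cast h
  have h4 : (m : ℝ) * (r * Real.log 2) ≤ (Nat.primeCounting (2 ^ r)) * (r * Real.log 2) := by
    have := mul_le_mul_of_nonneg_right h' l2.le
    nlinarith
  have h5 : (m : ℝ) ≤ Nat.primeCounting (2 ^ r) := le_of_mul_le_mul_right h4 (by positivity)
  have h6 : m ≤ Nat.primeCounting (2 ^ r) := by exact_mod_cast h5
  have : Nat.nth Nat.Prime i < 2 ^ r + 1 :=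
    Nat.nth_lt_of_lt_count (lt_of_lt_of_le hi h6)
  omega

/-- the exponent of the word length needed at depth `L` -/
def lenExp (L : ℕ) : ℕ := 208 * (Nat.log 2 L + 1) * (L + 1) ^ 2

lemma prime_param (L lam : ℕ) (hL : 8 ≤ L) (hl1 : L + 1 ≤ 2 ^ lam) (hl2 : lam ≤ L + 1) :
    8 * lam * (L * (6 * (8 * lam) * (L + 1)) + 1) + 8 * lam + 1 ≤ 2 ^ (8 * lam) := by
  have e : 2 ^ (8 * lam) = (2 ^ lam) ^ 8 := by rw [← pow_mul, mul_comm]
  rw [e]
  generalize 2 ^ lam = y at *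
  have a1 : lam ≤ y := hl2.trans hl1
  have a2 : L ≤ y := by omega
  have a3 : 9 ≤ y := by omega
  have a4 : y ≤ y ^ 4 := Nat.le_self_pow (by norm_num) y
  calc 8 * lam * (L * (6 * (8 * lam) * (L + 1)) + 1) + 8 * lam + 1
      ≤ 8 * y * (y * (6 * (8 * y) * y) + 1) + 8 * y + 1 := by gcongr
    _ = 384 * y ^ 4 + 16 * y + 1 := by ring
    _ ≤ 401 * y ^ 4 := by omega
    _ ≤ y ^ 4 * y ^ 4 := by
        gcongr
        calc 401 ≤ 9 ^ 4 := by norm_num
          _ ≤ y ^ 4 := by gcongr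
    _ = y ^ 8 := by ring

lemma eta_param (L P : ℕ) (hL : 8 ≤ L) (hP : L ≤ P) :
    ((P ^ (2 * L + 2) : ℕ) : ℝ) / (2 * ((P ^ (3 * L + 3) : ℕ) : ℝ)) ≤ 2 * (4 / L) ^ L / L := by
  have hPr : (L : ℝ) ≤ P := by exact_mod_cast hP
  have hLr : (8 : ℝ) ≤ L := by exact_mod_cast hL
  have hP0' : (0 : ℝ) < P := by linarith
  have e1 : ((P ^ (2 * L + 2) : ℕ) : ℝ) / (2 * ((P ^ (3 * L + 3) : ℕ) : ℝ))
      = 1 / (2 * (P : ℝ) ^ (L + 1)) := by
    push_cast; field_simp; ring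
  have e2 : (1 : ℝ) / (2 * (P : ℝ) ^ (L + 1)) ≤ 1 / (2 * (L : ℝ) ^ (L + 1)) := by gcongr
  have e3 : 2 * ((4 : ℝ) / L) ^ L / L = 2 * 4 ^ L / (L : ℝ) ^ (L + 1) := by
    rw [div_pow]; field_simp; ring
  have e4 : (1 : ℝ) ≤ 4 ^ L := one_le_pow₀ (by norm_num)
  rw [e1, e3]
  refine e2.trans ?_
  rw [div_le_div_iff₀ (by positivity) (by positivity)]
  have : (0 : ℝ) < (L : ℝ) ^ (L + 1) := by positivity
  nlinarith

lemma exists_gadget (L lam : ℕ) (hL : 8 ≤ L) (hl1 : L + 1 ≤ 2 ^ lam) (hl2 : lam ≤ L + 1)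
    (P N b : ℕ) (hP : P = 2 ^ (8 * lam)) (hN : N = 6 * (8 * lam) * (L + 1))
    (hb : b = P ^ (3 * L + 3)) :
    Nonempty (Gadget (Nat.nth Nat.Prime (L * N)) ((b * N) ^ L) (N ^ L * P ^ (L + 1))
      ((1 / 4) ^ (L + 1)) ((4 / L) ^ L)) := by
  have hl0 : 1 ≤ lam := by
    rcases Nat.eq_zero_or_pos lam with h | h
    · rw [h] at hl1; omega
    · exact h
  have hPL : L + 1 ≤ P := hP ▸ hl1.trans (Nat.pow_le_pow_right (by norm_num) (by omega))
  have hN8 : 8 ≤ N := by rw [hN]; nlinarith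
  have hprime : ∀ i < L * N + 1, Nat.nth Nat.Prime i ≤ P := by
    rw [hP]
    refine many_primes _ _ (by omega) ?_
    rw [hN]; exact prime_param L lam hL hl1 hl2
  have hbN : b ^ 2 = 2 ^ N := by rw [hb, hP, ← pow_mul, ← pow_mul, hN]; congr 1; ring
  have hP2 : 2 ≤ P := by omega
  have hP0 : 0 < P := by omega
  have hco : ∀ i j, i ≠ j → Nat.Coprime (Nat.nth Nat.Prime i) (Nat.nth Nat.Prime j) :=
    fun i j hij => (Nat.coprime_primes (Nat.prime_nth_prime i) (Nat.prime_nth_prime j)).2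
      ((Nat.nth_injective Nat.infinite_setOf_prime).ne hij)
  refine gadget_iter L N b (P ^ (2 * L + 2)) L P (P ^ (L + 1)) (Nat.nth Nat.Prime) hN8
    ?_ (fun j _ => (Nat.prime_nth_prime j).two_le) (fun j hj => hprime j (by omega)) hco
    hbN.le (by omega) hP0 ?_ (hb ▸ Nat.pow_le_pow_right hP0 (by omega))
    (hb ▸ eta_param L P hL (by omega)) L le_rfl _ (Nat.prime_nth_prime _).pos ?_
    (fun i hi => hco _ _ (by omega))
  · calc 4 ≤ P := by omega
      _ ≤ b := hb ▸ Nat.le_self_pow (by omega) P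
  · calc 2 * (P ^ (L + 1) * P ^ L) ≤ P * (P ^ (L + 1) * P ^ L) := by gcongr
      _ = P ^ (2 * L + 2) := by ring
  · rw [pow_succ']; exact Nat.mul_le_mul_right _ (hprime _ (by omega))

lemma bound_at (L : ℕ) (hL : 8 ≤ L) (n : ℕ) (hn : 2 ^ lenExp L ≤ n) :
    ((L : ℝ) / 16) ^ L / (17408 * (L + 1) ^ 3) ≤ c1 n := by
  obtain ⟨lam, hlam⟩ : ∃ lam, lam = Nat.log 2 L + 1 := ⟨_, rfl⟩
  have hl1 : L + 1 ≤ 2 ^ lam := hlam ▸ Nat.lt_pow_succ_log_self (by norm_num) L
  have hl2 : lam ≤ L + 1 := by have := Nat.log_le_self 2 L; omega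
  have hl0 : 1 ≤ lam := by omega
  obtain ⟨P, hP⟩ : ∃ P, P = 2 ^ (8 * lam) := ⟨_, rfl⟩
  obtain ⟨N, hN⟩ : ∃ N, N = 6 * (8 * lam) * (L + 1) := ⟨_, rfl⟩
  obtain ⟨b, hb⟩ : ∃ b, b = P ^ (3 * L + 3) := ⟨_, rfl⟩
  obtain ⟨D⟩ := exists_gadget L lam hL hl1 hl2 P N b hP hN hb
  have hLr : (8 : ℝ) ≤ L := by exact_mod_cast hL
  obtain ⟨k, hk⟩ : ∃ k, k = N * L + 8 * lam * (L + 1) := ⟨_, rfl⟩
  have hNN : N ≤ 2 ^ N := Nat.lt_two_pow_self.le
  have hK : N ^ L * P ^ (L + 1) ≤ 2 ^ k := by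
    rw [hk, pow_add 2, pow_mul 2 N, pow_mul 2 (8 * lam), ← hP]; gcongr
  have hm : 2 * k + 3 ≤ 136 * lam * (L + 1) ^ 2 := by
    rw [hk, hN]; nlinarith
  have hlen : (2 * k + 3) * (b * N) ^ L ≤ n := by
    refine le_trans ?_ hn
    have a1 : 2 * k + 3 ≤ 2 ^ (136 * lam * (L + 1) ^ 2) :=
      Nat.lt_two_pow_self.le.trans (Nat.pow_le_pow_right (by norm_num) hm)
    have a2 : (b * N) ^ L ≤ 2 ^ (72 * lam * (L + 1) ^ 2) := by
      calc (b * N) ^ L ≤ (b * 2 ^ N) ^ L := by gcongr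
        _ = 2 ^ ((8 * lam * (3 * L + 3) + N) * L) := by
          rw [hb, hP, ← pow_mul, ← pow_add, ← pow_mul]
        _ ≤ _ := Nat.pow_le_pow_right (by norm_num) (by rw [hN]; nlinarith)
    calc _ ≤ 2 ^ (136 * lam * (L + 1) ^ 2) * 2 ^ (72 * lam * (L + 1) ^ 2) := by gcongr
      _ = 2 ^ lenExp L := by rw [← pow_add, lenExp, ← hlam]; congr 1; ring
  have hpos : 0 < (b * N) ^ L := by rw [hb, hP, hN]; positivity
  refine le_c1 n _ fun f A B hA hB h1 h2 => ?_
  have := gadget_bound D (Nat.prime_nth_prime _).two_le hpos k hK n hlen f A B hA hB h1 h2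
  have hm' : 2 * (k : ℝ) + 3 ≤ 136 * (L + 1) ^ 3 := by
    have : 2 * k + 3 ≤ 136 * (L + 1) ^ 3 := hm.trans (by
      rw [pow_succ' (L + 1) 2, ← mul_assoc]; gcongr)
    exact_mod_cast this
  have h3 : 32 * (2 * (k : ℝ) + 3) * (4 / L) ^ L * (A * B)
      ≤ 32 * (136 * (L + 1) ^ 3) * (4 / L) ^ L * (A * B) := by gcongr
  rw [div_le_iff₀ (by positivity)]
  have e : ((L : ℝ) / 16) ^ L = 4 * (L / 4) ^ L * (1 / 4) ^ (L + 1) := by
    rw [pow_succ, show (L : ℝ) / 16 = L / 4 * (1 / 4) by ring, mul_pow]; ring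
  have e2 : ((L : ℝ) / 4) ^ L * (4 / L) ^ L = 1 := by
    rw [← mul_pow, show (L : ℝ) / 4 * (4 / L) = 1 by field_simp, one_pow]
  have h4 := mul_le_mul_of_nonneg_left (this.trans h3)
    (show (0 : ℝ) ≤ 4 * (L / 4) ^ L by positivity)
  rw [e]
  calc _ ≤ _ := h4
    _ = A * B * (17408 * (L + 1) ^ 3) * ((L / 4) ^ L * (4 / L) ^ L) := by ring
    _ = _ := by rw [e2, mul_one]

lemma analysis (L n : ℕ) (hL : 1048576 ≤ L) (h1 : 1 ≤ n) (h2 : n < 2 ^ lenExp (L + 1)) :
    Real.exp (1 / 232 * √(Real.log n * Real.log (Real.log n)))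
      ≤ ((L : ℝ) / 16) ^ L / (17408 * (L + 1) ^ 3) := by
  have hLr : (1048576 : ℝ) ≤ L := by exact_mod_cast hL
  clear hL
  have he : ((lenExp (L + 1) : ℕ) : ℝ)
      = 208 * ((Nat.log 2 (L + 1) : ℕ) + 1) * (L + 1 + 1) ^ 2 := by
    unfold lenExp; push_cast; ring
  have hg : 2 ^ Nat.log 2 (L + 1) ≤ L + 1 := Nat.pow_log_le_self 2 (by omega)
  generalize lenExp (L + 1) = e at *
  generalize Nat.log 2 (L + 1) = g at *
  have hL0 : (0 : ℝ) < L := by linarith
  have l2 : (69 / 100 : ℝ) < Real.log 2 := by have := Real.log_two_gt_d9; linarith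
  have l2' : Real.log 2 < 70 / 100 := by have := Real.log_two_lt_d9; linarith
  set x := Real.log L with hx
  have hx13 : 13 ≤ x := by
    have := Real.log_le_log (by norm_num) hLr
    rw [show (1048576 : ℝ) = 2 ^ 20 by norm_num, Real.log_pow] at this
    push_cast at this; linarith
  have hxL : x ≤ L := (Real.log_le_sub_one_of_pos hL0).trans (by linarith)
  have hn1 : (1 : ℝ) ≤ n := by
    exact_mod_cast h1
  have hlam : (g : ℝ) + 1 ≤ 4 * x := by
    have a2 : (2 : ℝ) ^ g ≤ L ^ 2 := by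
      have : (2 : ℝ) ^ g ≤ L + 1 := by exact_mod_cast hg
      nlinarith
    have a3 := Real.log_le_log (by positivity) a2
    rw [Real.log_pow, Real.log_pow] at a3
    push_cast at a3
    have : (0 : ℝ) ≤ g := by positivity
    nlinarith
  have hlog : Real.log n ≤ 3328 * L ^ 2 * x := by
    have a1 : (n : ℝ) ≤ 2 ^ e := by exact_mod_cast h2.le
    have a2 := Real.log_le_log (by linarith) a1
    rw [Real.log_pow] at a2
    have a3 : (e : ℝ) ≤ 208 * (4 * x) * (2 * L) ^ 2 := by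
      rw [he]; gcongr; linarith
    have : (0 : ℝ) ≤ e := by positivity
    nlinarith
  have hlog0 : 0 ≤ Real.log n := Real.log_nonneg hn1
  have hll : Real.log (Real.log n) ≤ 4 * x := by
    rcases hlog0.eq_or_lt with h | h
    · rw [← h]; simp; linarith
    · have a1 : Real.log n ≤ L ^ 4 := by
        have : 3328 * (L : ℝ) ^ 2 * x ≤ L * L ^ 2 * L := by gcongr; linarith
        nlinarith
      have := Real.log_le_log h a1
      rw [Real.log_pow] at this; exact_mod_cast this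
  have hs : √(Real.log n * Real.log (Real.log n)) ≤ 116 * L * x := by
    refine Real.sqrt_le_iff.2 ⟨by positivity, ?_⟩
    have a1 := mul_le_mul_of_nonneg_left hll hlog0
    have a2 := mul_le_mul_of_nonneg_right hlog (show 0 ≤ 4 * x by linarith)
    nlinarith [sq_nonneg (L * x)]
  rw [le_div_iff₀ (by positivity)]
  have e1 : ((L : ℝ) / 16) ^ L = Real.exp (L * (x - 4 * Real.log 2)) := by
    rw [Real.exp_nat_mul, Real.exp_sub, hx, Real.exp_log hL0,
      show (4 : ℝ) * Real.log 2 = Real.log 16 by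
        rw [show (16 : ℝ) = 2 ^ 4 by norm_num, Real.log_pow]; norm_num, Real.exp_log (by norm_num)]
  have e2 : 17408 * ((L : ℝ) + 1) ^ 3 ≤ Real.exp (17407 + 3 * L) := by
    rw [Real.exp_add, show (3 : ℝ) * L = (3 : ℕ) * L by norm_num, Real.exp_nat_mul]
    have := Real.add_one_le_exp (17407 : ℝ)
    have := Real.add_one_le_exp (L : ℝ)
    gcongr; linarith
  rw [e1]
  calc _ ≤ Real.exp (1 / 232 * (116 * L * x)) * Real.exp (17407 + 3 * L) := by gcongr
    _ ≤ _ := by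
      rw [← Real.exp_add]
      refine Real.exp_le_exp.2 ?_
      nlinarith

lemma exists_depth (L0 n : ℕ) (hn : 2 ^ lenExp L0 ≤ n) :
    ∃ L, L0 ≤ L ∧ 2 ^ lenExp L ≤ n ∧ n < 2 ^ lenExp (L + 1) := by
  classical
  have hex : ∃ j, n < 2 ^ lenExp (L0 + j + 1) := by
    refine ⟨n, Nat.lt_two_pow_self.trans_le (Nat.pow_le_pow_right (by norm_num) ?_)⟩
    unfold lenExp
    calc n ≤ 1 * (L0 + n + 1 + 1) := by omega
      _ ≤ _ := Nat.mul_le_mul (by omega) (Nat.le_self_pow (by norm_num) _)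
  refine ⟨L0 + Nat.find hex, by omega, ?_, Nat.find_spec hex⟩
  rcases Nat.eq_zero_or_pos (Nat.find hex) with h | h
  · rw [h]; exact hn
  · have := Nat.find_min hex (show Nat.find hex - 1 < Nat.find hex by omega)
    rw [show L0 + (Nat.find hex - 1) + 1 = L0 + Nat.find hex by omega] at this
    exact not_lt.1 this

theorem lower_bound : ∃ n0 : ℕ, ∀ n ≥ n0,
    Real.exp (1 / 232 * √(Real.log n * Real.log (Real.log n))) ≤ c1 n := by
  obtain ⟨L0, hL0⟩ : ∃ L0 : ℕ, 1048576 ≤ L0 := ⟨_, le_rfl⟩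
  refine ⟨2 ^ lenExp L0, fun n hn => ?_⟩
  obtain ⟨L, hL, h1, h2⟩ := exists_depth L0 n hn
  exact (analysis L n (hL0.trans hL) (Nat.one_le_two_pow.trans h1) h2).trans
    (bound_at L (by omega) n h1)

end Vale.Agent.P238
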