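import Mathlib

namespace Vale.Agent.P238

open List

variable {α : Type}

/-- concatenation of the blocks `X i, …, X (i+k-1)` -/
def cat (X : ℕ → List α) : ℕ → ℕ → List α
  | _, 0 => []
  | i, k + 1 => X i ++ cat X (i + 1) k

lemma cat_add (X : ℕ → List α) (i k l : ℕ) : cat X i (k + l) = cat X i k ++ cat X (i + k) l := by
  induction k generalizing i with
  | zero => simp [cat]
  | succ k ih =>
    rw [show k + 1 + l = (k + l) + 1 by omega]
    simp only [cat, ih, append_assoc]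
    rw [show i + 1 + k = i + (k + 1) by omega]

lemma cat_shift (X : ℕ → List α) (s i k : ℕ) : cat (fun j => X (j + s)) i k = cat X (i + s) k := by
  induction k generalizing i with
  | zero => simp [cat]
  | succ k ih => simp only [cat, ih]; rw [show i + 1 + s = i + s + 1 by omega]

lemma cat_length (X : ℕ → List α) (i k : ℕ) :
    (cat X i k).length = ∑ j ∈ Finset.range k, (X (i + j)).length := by
  induction k generalizing i with
  | zero => simp [cat]
  | succ k ih =>
    simp only [cat, length_append, ih, Finset.sum_range_succ', add_zero]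
    rw [add_comm]; congr 1
    exact Finset.sum_congr rfl fun j _ => by rw [show i + 1 + j = i + (j + 1) by omega]

lemma cat_sublist (X Y : ℕ → List α) (h : ∀ j, X j <+ Y j) (i k : ℕ) :
    cat X i k <+ cat Y i k := by
  induction k generalizing i with
  | zero => simp [cat]
  | succ k ih => exact (h i).append (ih _)

lemma mem_cat {X : ℕ → List α} {i k : ℕ} {a : α} (h : a ∈ cat X i k) : ∃ j, a ∈ X j := by
  induction k generalizing i with
  | zero => simp [cat] at h
  | succ k ih =>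
    rcases mem_append.1 h with h | h
    · exact ⟨i, h⟩
    · exact ih h

lemma stair_aux {τ : Type} (X Y : ℕ → List α) (q : ℕ) (lam : ℕ → ℕ → ℝ) (Ψ : τ → ℕ → ℕ → ℝ)
    (hlam : ∀ i i', i < q → i' < q → ∀ z, z <+ X i → z <+ Y i' → (z.length : ℝ) ≤ lam i i')
    (h1 : ∀ i i' t, i < q → i' < q → ∃ t', lam i i' + Ψ t (i + 1) i' ≤ Ψ t' i i')
    (h2 : ∀ i i' t, i < q → i' < q → ∃ t', lam i i' + Ψ t i (i' + 1) ≤ Ψ t' i i')
    (hb1 : ∀ i, i ≤ q → ∃ t, 0 ≤ Ψ t q i) (hb2 : ∀ i, i ≤ q → ∃ t, 0 ≤ Ψ t i q) (m : ℕ) :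
    ∀ i i' k k' : ℕ, k + k' = m → i + k + 1 = q → i' + k' + 1 = q → ∀ A A' z : List α,
      A <+ X i → A' <+ Y i' → z <+ A ++ cat X (i + 1) k → z <+ A' ++ cat Y (i' + 1) k' →
      ∃ t, (z.length : ℝ) ≤ Ψ t i i' := by
  induction m using Nat.strong_induction_on with
  | _ m ih =>
  intro i i' k k' hm hi hi' A A' z hA hA' hz hz'
  obtain ⟨z1, z2, e1, hz1, hz2⟩ := sublist_append_iff.1 hz
  obtain ⟨y1, y2, e2, hy1, hy2⟩ := sublist_append_iff.1 hz'
  have hiq : i < q := by omega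
  have hiq' : i' < q := by omega
  rcases append_eq_append_iff.1 (e1.symm.trans e2) with ⟨w, hw1, hw2⟩ | ⟨w, hw1, hw2⟩
  · have hl := hlam i i' hiq hiq' z1 (hz1.trans hA)
      (((sublist_append_left z1 w).trans (hw1 ▸ hy1)).trans hA')
    have : ∃ t, (z2.length : ℝ) ≤ Ψ t (i + 1) i' := by
      cases k with
      | zero =>
        have : z2 = [] := by simpa [cat] using hz2
        obtain ⟨t, ht⟩ := hb1 i' hiq'.le
        refine ⟨t, ?_⟩
        rw [this, show i + 1 = q by omega]; simpa using ht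
      | succ k =>
        refine ih (k + k') (by omega) (i + 1) i' k k' rfl (by omega) hi' (X (i + 1)) w z2
          (Sublist.refl _) (((sublist_append_right z1 w).trans (hw1 ▸ hy1)).trans hA') hz2 ?_
        rw [hw2]; exact (Sublist.refl w).append hy2
    obtain ⟨t, ht⟩ := this
    obtain ⟨t', ht'⟩ := h1 i i' t hiq hiq'
    refine ⟨t', ?_⟩
    rw [e1, length_append]; push_cast; linarith
  · have hl := hlam i i' hiq hiq' y1
      (((sublist_append_left y1 w).trans (hw1 ▸ hz1)).trans hA) (hy1.trans hA')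
    have : ∃ t, (y2.length : ℝ) ≤ Ψ t i (i' + 1) := by
      cases k' with
      | zero =>
        have : y2 = [] := by simpa [cat] using hy2
        obtain ⟨t, ht⟩ := hb2 i hiq.le
        refine ⟨t, ?_⟩
        rw [this, show i' + 1 = q by omega]; simpa using ht
      | succ k' =>
        refine ih (k + k') (by omega) i (i' + 1) k k' rfl hi (by omega) w (Y (i' + 1)) y2
          (((sublist_append_right y1 w).trans (hw1 ▸ hz1)).trans hA) (Sublist.refl _) ?_ hy2
        rw [hw2]; exact (Sublist.refl w).append hz2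
    obtain ⟨t, ht⟩ := this
    obtain ⟨t', ht'⟩ := h2 i i' t hiq hiq'
    refine ⟨t', ?_⟩
    rw [e2, length_append]; push_cast; linarith

lemma stair {τ : Type} (X Y : ℕ → List α) (q : ℕ) (hq : 0 < q) (lam : ℕ → ℕ → ℝ)
    (Ψ : τ → ℕ → ℕ → ℝ)
    (hlam : ∀ i i', i < q → i' < q → ∀ z, z <+ X i → z <+ Y i' → (z.length : ℝ) ≤ lam i i')
    (h1 : ∀ i i' t, i < q → i' < q → ∃ t', lam i i' + Ψ t (i + 1) i' ≤ Ψ t' i i')
    (h2 : ∀ i i' t, i < q → i' < q → ∃ t', lam i i' + Ψ t i (i' + 1) ≤ Ψ t' i i')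
    (hb1 : ∀ i, i ≤ q → ∃ t, 0 ≤ Ψ t q i) (hb2 : ∀ i, i ≤ q → ∃ t, 0 ≤ Ψ t i q)
    (z : List α) (hx : z <+ cat X 0 q) (hy : z <+ cat Y 0 q) :
    ∃ t, (z.length : ℝ) ≤ Ψ t 0 0 := by
  obtain ⟨k, rfl⟩ : ∃ k, q = k + 1 := ⟨q - 1, by omega⟩
  exact stair_aux X Y (k + 1) lam Ψ hlam h1 h2 hb1 hb2 (k + k) 0 0 k k rfl (by omega) (by omega)
    (X 0) (Y 0) z (Sublist.refl _) (Sublist.refl _) hx hy

/-- periodic correction term -/
noncomputable def om (N : ℕ) (a : ℕ → ℝ) (k : ℕ) : ℝ :=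
  ∑ j ∈ Finset.Ico (k % N) N, a j + ((k % N : ℕ) : ℝ) / 2

lemma om_nonneg (N : ℕ) (a : ℕ → ℝ) (ha : ∀ j, 0 ≤ a j) (k : ℕ) : 0 ≤ om N a k := by
  unfold om
  have := Finset.sum_nonneg (s := Finset.Ico (k % N) N) fun j _ => ha j
  positivity

lemma om_le (N : ℕ) (hN : 0 < N) (a : ℕ → ℝ) (ha : ∀ j, 0 ≤ a j)
    (hs : ∑ j ∈ Finset.range N, a j ≤ N / 2) (k : ℕ) : om N a k ≤ N := by
  unfold om
  have h1 : ∑ j ∈ Finset.Ico (k % N) N, a j ≤ ∑ j ∈ Finset.range N, a j :=
    Finset.sum_le_sum_of_subset_of_nonneg (fun j hj => by simp at hj ⊢; omega) fun j _ _ => ha j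
  have h2 : ((k % N : ℕ) : ℝ) ≤ N := by exact_mod_cast (Nat.mod_lt k hN).le
  linarith

lemma om_step (N : ℕ) (hN : 0 < N) (a : ℕ → ℝ)
    (hs : ∑ j ∈ Finset.range N, a j ≤ N / 2) (k : ℕ) :
    a (k % N) + om N a (k + 1) ≤ om N a k + 1 / 2 := by
  unfold om
  have hk := Nat.mod_lt k hN
  rw [Finset.sum_eq_sum_Ico_succ_bot hk]
  by_cases h : k % N + 1 < N
  · have : (k + 1) % N = k % N + 1 := by
      rw [Nat.add_mod, Nat.mod_eq_of_lt (show 1 < N by omega), Nat.mod_eq_of_lt h]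
    rw [this]; push_cast; linarith
  · have e : k % N + 1 = N := by omega
    have : (k + 1) % N = 0 := by
      have := Nat.mod_add_div k N
      rw [show k + 1 = N * (k / N + 1) by rw [mul_add]; omega]; simp
    rw [this, e]
    have e' : ((k % N : ℕ) : ℝ) + 1 = N := by exact_mod_cast e
    simp only [Finset.Ico_self, Finset.sum_empty, Nat.cast_zero, ← Finset.range_eq_Ico]
    linarith

lemma far_concat (X Y : ℕ → List α) (N b : ℕ) (hN : 8 ≤ N) (hb : 4 ≤ b) (n c : ℝ) (hn : 0 ≤ n)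
    (hc0 : 0 ≤ c) (hc : c ≤ 1 / 4) (a : ℤ → ℕ → ℝ) (ha0 : ∀ t j, 0 ≤ a t j)
    (ha1 : ∀ t j, a t j ≤ 1) (hs : ∀ t, ∑ j ∈ Finset.range N, a t j ≤ N / 2)
    (hne : ∀ i i', i % N ≠ i' % N → ∀ z, z <+ X i → z <+ Y i' → z = [])
    (heq : ∀ i i', i < b * N → i' < b * N → i % N = i' % N → ∀ z, z <+ X i → z <+ Y i' →
      (z.length : ℝ) ≤ n * ((1 - c) + c * a ((i' / N : ℕ) - (i / N : ℕ)) (i % N)))
    (z : List α) (hx : z <+ cat X 0 (b * N)) (hy : z <+ cat Y 0 (b * N)) :
    (z.length : ℝ) ≤ (1 - c / 4) * (b * N * n) := by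
  have hN0 : 0 < N := by omega
  have hNr : (8 : ℝ) ≤ N := by exact_mod_cast hN
  set q := b * N with hq
  let V : ℤ → ℕ → ℝ := fun t k =>
    n * ((1 - c) * (q - k - t * N / 2) + c * ((q - k) / 2 + om N (a t) k))
  let K : ℤ → ℕ → ℕ → ℕ := fun t i i' => max i (i' - t * N).toNat
  have Vstep : ∀ t k, n * ((1 - c) + c * a t (k % N)) + V t (k + 1) ≤ V t k := by
    intro t k
    have := om_step N hN0 (a t) (hs t) k
    simp only [V]; rw [← mul_add]
    refine mul_le_mul_of_nonneg_left ?_ hn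
    push_cast; nlinarith
  have Vmono : ∀ t k k', k' = k ∨ k' = k + 1 → V t k' ≤ V t k := by
    rintro t k k' (rfl | rfl)
    · exact le_rfl
    · have := Vstep t k
      have h2 : 0 ≤ n * ((1 - c) + c * a t (k % N)) :=
        mul_nonneg hn (by have := ha0 t (k % N); nlinarith)
      linarith
  have Vjump : ∀ (t t0 : ℤ) (i k : ℕ), i ≤ k → 2 * (i : ℤ) + t0 * N + N ≤ 2 * k + t * N →
      n * ((1 - c) + c * a t0 (i % N)) + V t k ≤ V t0 i := by
    intro t t0 i k hik h
    have h' : 2 * (i : ℝ) + t0 * N + N ≤ 2 * k + t * N := by exact_mod_cast h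
    have hik' : (i : ℝ) ≤ k := by exact_mod_cast hik
    have o1 := om_le N hN0 (a t) (ha0 t) (hs t) k
    have o2 := om_nonneg N (a t0) (ha0 t0) i
    have o3 := ha1 t0 (i % N)
    simp only [V]; rw [← mul_add]
    refine mul_le_mul_of_nonneg_left ?_ hn
    have e1 : (1 - c) * (q - k - t * N / 2) ≤ (1 - c) * (q - i - t0 * N / 2 - N / 2) :=
      mul_le_mul_of_nonneg_left (by linarith) (by linarith)
    have e2 : c * ((q - k) / 2 + om N (a t) k) ≤ c * ((q - i) / 2 + N) :=
      mul_le_mul_of_nonneg_left (by linarith) hc0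
    have e3 : c * ((q - i) / 2) ≤ c * ((q - i) / 2 + om N (a t0) i) :=
      mul_le_mul_of_nonneg_left (by linarith) hc0
    have e4 : c * a t0 (i % N) ≤ c * 1 := mul_le_mul_of_nonneg_left o3 hc0
    nlinarith
  let lam : ℕ → ℕ → ℝ := fun i i' => if i % N = i' % N then
    n * ((1 - c) + c * a ((i' / N : ℕ) - (i / N : ℕ)) (i % N)) else 0
  have main : ∀ (i i' i2 i2' : ℕ) (t : ℤ), (i2 = i + 1 ∧ i2' = i') ∨ (i2 = i ∧ i2' = i' + 1) →
      ∃ t', lam i i' + V t (K t i2 i2') ≤ V t' (K t' i i') := by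
    intro i i' i2 i2' t hmv
    by_cases h : i % N = i' % N
    · set t0 : ℤ := (i' / N : ℕ) - (i / N : ℕ) with ht0
      have hd : (i' : ℤ) - t0 * N = i := by
        have e1 := Nat.mod_add_div i N
        have e2 := Nat.mod_add_div i' N
        have e1' : ((i % N : ℕ) : ℤ) + N * (i / N : ℕ) = i := by exact_mod_cast e1
        have e2' : ((i' % N : ℕ) : ℤ) + N * (i' / N : ℕ) = i' := by exact_mod_cast e2
        rw [h] at e1'
        rw [ht0]; linear_combination e1' - e2'
      refine ⟨t0, ?_⟩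
      have hK : K t0 i i' = i := by simp only [K]; omega
      have hl : lam i i' = n * ((1 - c) + c * a t0 (i % N)) := by simp only [lam, if_pos h, ht0]
      rw [hK, hl]
      rcases lt_trichotomy t t0 with hlt | rfl | hlt
      · have : (t + 1) * (N : ℤ) ≤ t0 * N := mul_le_mul_of_nonneg_right (by omega) (by omega)
        rw [add_mul] at this
        refine Vjump t t0 i _ (by simp only [K]; omega) ?_
        simp only [K]; omega
      · have : K t0 i2 i2' = i + 1 := by simp only [K]; omega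
        rw [this]; exact Vstep _ _
      · have : (t0 + 1) * (N : ℤ) ≤ t * N := mul_le_mul_of_nonneg_right (by omega) (by omega)
        rw [add_mul] at this
        refine Vjump t t0 i _ (by simp only [K]; omega) ?_
        simp only [K]; omega
    · refine ⟨t, ?_⟩
      simp only [lam, if_neg h, zero_add]
      exact Vmono t _ _ (by simp only [K]; omega)
  have hV0 : 0 ≤ V 0 q := by
    have := om_nonneg N (a 0) (ha0 0) q
    simp only [V]; refine mul_nonneg hn ?_
    simp; positivity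
  obtain ⟨t, ht⟩ := stair X Y q (by positivity) lam (fun t i i' => V t (K t i i'))
    (by
      intro i i' hi hi' z hz hz'
      by_cases h : i % N = i' % N
      · simp only [lam, if_pos h]; exact heq i i' hi hi' h z hz hz'
      · simp [lam, h, hne i i' h z hz hz'])
    (fun i i' t _ _ => main i i' _ _ t (Or.inl ⟨rfl, rfl⟩))
    (fun i i' t _ _ => main i i' _ _ t (Or.inr ⟨rfl, rfl⟩))
    (fun i hi => ⟨0, by
      have : K 0 q i = q := by simp only [K]; omega
      rw [this]; exact hV0⟩)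
    (fun i hi => ⟨0, by
      have : K 0 i q = q := by simp only [K]; omega
      rw [this]; exact hV0⟩) z hx hy
  refine ht.trans ?_
  have hk : (0 : ℤ) ≤ 2 * (K t 0 0 : ℕ) + t * N := by simp only [K]; omega
  have hk' : (0 : ℝ) ≤ 2 * (K t 0 0 : ℕ) + t * N := by exact_mod_cast hk
  have o1 := om_le N hN0 (a t) (ha0 t) (hs t) (K t 0 0)
  have hk0 : (0 : ℝ) ≤ (K t 0 0 : ℕ) := by positivity
  have hqr : (q : ℝ) = b * N := by rw [hq]; push_cast; ring
  have hbr : (4 : ℝ) ≤ b := by exact_mod_cast hb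
  have hq4 : 4 * (N : ℝ) ≤ q := by rw [hqr]; nlinarith
  simp only [V]
  rw [← hqr, show (1 - c / 4) * (q * n) = n * ((1 - c / 4) * q) by ring]
  refine mul_le_mul_of_nonneg_left ?_ hn
  have e1 : (1 - c) * (q - (K t 0 0 : ℕ) - t * N / 2) ≤ (1 - c) * q :=
    mul_le_mul_of_nonneg_left (by linarith) (by linarith)
  have e2 : c * ((q - (K t 0 0 : ℕ)) / 2 + om N (a t) (K t 0 0)) ≤ c * (q / 2 + q / 4) :=
    mul_le_mul_of_nonneg_left (by linarith) hc0
  nlinarith

end Vale.Agent.P238
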