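import Vale.Agent.P238.Edit
import Vale.Agent.P238.Cuts

namespace Vale.Agent.P238

open List

variable {α : Type}

def One (x y : List α) : Prop := ∃ z, z <+ x ∧ z <+ y ∧ x.length ≤ z.length + 1

def Emb (n : ℕ) (D : ℝ) : Prop :=
  ∃ ρ : List Bool → List Bool → ℝ, IsCut ρ ∧
    (∀ x y, x.length = n → y.length = n → One x y → ρ x y ≤ D) ∧
    (∀ x y, x.length = n → y.length = n → ∃ z, z <+ x ∧ z <+ y ∧ (n : ℝ) ≤ z.length + ρ x y)

lemma Emb.mono {n : ℕ} {D D' : ℝ} (h : Emb n D) (hD : D ≤ D') : Emb n D' := by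
  obtain ⟨ρ, h1, h2, h3⟩ := h
  exact ⟨ρ, h1, fun x y hx hy h => (h2 x y hx hy h).trans hD, h3⟩

lemma sub_ins {z x : List α} (h : z <+ x) (hl : x.length = z.length + 1) :
    ∃ u v a, z = u ++ v ∧ x = u ++ a :: v := by
  induction h with
  | slnil => simp at hl
  | @cons l1 l2 a h _ =>
    have := h.eq_of_length (by simpa using hl.symm)
    exact ⟨[], l2, a, by simp [this], rfl⟩
  | @cons_cons l1 l2 a _ ih =>
    obtain ⟨u, v, c, h1, h2⟩ := ih (by simpa using hl)
    exact ⟨a :: u, v, c, by simp [h1], by simp [h2]⟩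

lemma sub_more {z y : List α} (h : z <+ y) (hl : z.length < y.length) :
    ∃ u v a, z = u ++ v ∧ u ++ a :: v <+ y := by
  induction h with
  | slnil => simp at hl
  | @cons l1 l2 a h _ => exact ⟨[], l1, a, rfl, h.cons_cons a⟩
  | @cons_cons l1 l2 a _ ih =>
    obtain ⟨u, v, c, h1, h2⟩ := ih (by simpa using hl)
    exact ⟨a :: u, v, c, by simp [h1], h2.cons_cons a⟩

lemma sub_less {z x : List α} (h : z <+ x) (hl : z.length < x.length) :
    ∃ w, z <+ w ∧ w <+ x ∧ w.length + 1 = x.length := by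
  induction h with
  | slnil => simp at hl
  | @cons l1 l2 a h _ => exact ⟨l2, h, sublist_cons_self a l2, rfl⟩
  | @cons_cons l1 l2 a _ ih =>
    obtain ⟨w, h1, h2, h3⟩ := ih (by simpa using hl)
    exact ⟨a :: w, h1.cons_cons a, h2.cons_cons a, by simp [h3]⟩

lemma chain_bound {n : ℕ} {D : ℝ} {ρ : List α → List α → ℝ} (hρ : IsCut ρ) (hD : 0 ≤ D)
    (h1 : ∀ x y, x.length = n → y.length = n → One x y → ρ x y ≤ D) (k : ℕ) :
    ∀ x y z, x.length = n → y.length = n → z <+ x → z <+ y → n ≤ z.length + k →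
      ρ x y ≤ D * k := by
  induction k with
  | zero =>
    intro x y z hx hy h2 h3 h4
    rw [← h2.eq_of_length_le (by omega), ← h3.eq_of_length_le (by omega), hρ.self]; simp
  | succ k ih =>
    intro x y z hx hy h2 h3 h4
    by_cases h5 : n ≤ z.length + k
    · refine (ih x y z hx hy h2 h3 h5).trans ?_
      push_cast; nlinarith
    obtain ⟨u, v, a, rfl, h6⟩ := sub_more h3 (by omega)
    obtain ⟨w, h7, h8, h9⟩ := sub_less h2 (by omega)
    obtain ⟨u1, u2, rfl, k1, k2⟩ := append_sublist_iff.1 h7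
    have hl : (u1 ++ a :: u2).length = n := by simp at h9 ⊢; omega
    have e1 := h1 x (u1 ++ a :: u2) hx hl
      ⟨u1 ++ u2, h8, (Sublist.refl u1).append (sublist_cons_self a u2), by omega⟩
    have e2 := ih (u1 ++ a :: u2) y (u ++ a :: v) hl hy (k1.append (k2.cons_cons a)) h6
      (by simp at h4 ⊢; omega)
    have := hρ.triangle x (u1 ++ a :: u2) y
    push_cast; linarith

lemma c1_le_of_emb {n : ℕ} {D : ℝ} (hD : 0 ≤ D) (h : Emb n D) : c1 n ≤ D * 2 := by
  obtain ⟨ρ, h1, h2, h3⟩ := h
  obtain ⟨f, hf⟩ := (h1.comap (fun x : Fin n → Bool => ofFn x)).exists_lp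
  have up : ∀ x y, ‖f x - f y‖ ≤ D * edCube x y := by
    intro x y
    obtain ⟨z, k1, k2, k3⟩ := exists_common (ofFn x) (ofFn y)
    rw [hf]
    exact chain_bound h1 hD h2 _ _ _ z (by simp) (by simp) k1 k2 (by simpa using k3)
  have low : ∀ x y, edCube x y ≤ 2 * ‖f x - f y‖ := by
    intro x y
    obtain ⟨z, k1, k2, k3⟩ := h3 (ofFn x) (ofFn y) (by simp) (by simp)
    have := editDist_le_of_common k1 k2
    simp only [length_ofFn] at this
    have h4 : (editDist (ofFn x) (ofFn y) : ℝ) + 2 * z.length ≤ n + n := by exact_mod_cast this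
    rw [hf, edCube]; linarith
  have hinj : Function.Injective f := by
    intro x y hxy
    have := low x y
    rw [hxy, sub_self, norm_zero, mul_zero, edCube] at this
    have h0 : editDist (ofFn x) (ofFn y) = 0 := by exact_mod_cast le_antisymm this (by positivity)
    exact ofFn_injective (eq_of_editDist_zero h0)
  have hed : ∀ x y : Fin n → Bool, 0 ≤ edCube x y := fun x y => by unfold edCube; positivity
  have hnn : ∀ g : (Fin n → Bool) → lp (fun _ : ℕ => ℝ) 1, 0 ≤ distortion g := fun g =>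
    mul_nonneg (Real.iSup_nonneg fun p => div_nonneg (norm_nonneg _) (hed _ _))
      (Real.iSup_nonneg fun p => div_nonneg (hed _ _) (norm_nonneg _))
  refine (ciInf_le ⟨0, by rintro _ ⟨g, rfl⟩; exact hnn g.1⟩
    (⟨f, hinj⟩ : {f : (Fin n → Bool) → lp (fun _ : ℕ => ℝ) 1 // Function.Injective f})).trans ?_
  refine mul_le_mul (Real.iSup_le (fun p => ?_) hD) (Real.iSup_le (fun p => ?_) zero_le_two)
    (Real.iSup_nonneg fun p => div_nonneg (hed _ _) (norm_nonneg _)) hD
  · exact div_le_of_le_mul₀ (hed _ _) hD (up _ _)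
  · exact div_le_of_le_mul₀ (norm_nonneg _) zero_le_two (low _ _)

lemma emb_base {n : ℕ} (hn : n ≤ 1) : Emb n 1 := by
  refine ⟨_, isCut_bool (fun x : List Bool => x.headD false), fun x y _ _ _ => ?_,
    fun x y hx hy => ?_⟩
  · split_ifs <;> norm_num
  · interval_cases n
    · refine ⟨[], nil_sublist _, nil_sublist _, ?_⟩
      split_ifs <;> norm_num
    · obtain ⟨a, rfl⟩ := length_eq_one_iff.1 hx
      obtain ⟨c, rfl⟩ := length_eq_one_iff.1 hy
      by_cases h : a = c
      · exact ⟨[a], Sublist.refl _, by rw [h], by simp [h]⟩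
      · exact ⟨[], nil_sublist _, nil_sublist _, by simp [h]⟩

lemma take_one {z x : List α} (h : z <+ x) (hl : x.length ≤ z.length + 1) (l : ℕ) :
    take (l - 1) z <+ take l x := by
  by_cases h1 : x.length ≤ l
  · rw [take_of_length_le h1]; exact (take_sublist _ _).trans h
  rw [← take_append_drop l x] at h
  obtain ⟨z1, z2, rfl, k1, k2⟩ := sublist_append_iff.1 h
  have := k2.length_le
  simp only [length_drop, length_append] at this hl
  rw [take_append_of_le_length (by omega)]
  exact (take_sublist _ _).trans k1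

lemma win_one {x y : List α} (hxy : x.length = y.length) (h : One x y) (r l : ℕ) :
    One (take l (drop r x)) (take l (drop r y)) := by
  obtain ⟨z, h1, h2, h3⟩ := h
  refine ⟨take (l - 1) (drop r z), take_one (h1.drop r) (by simp; omega) l,
    take_one (h2.drop r) (by simp; omega) l, ?_⟩
  simp; omega

lemma win_sub (x : List α) (r t l μ : ℕ) (h : t + l ≤ μ) :
    take l (drop (r + t) x) <+ take μ (drop r x) := by
  have : take l (drop (r + t) x) = take l (drop t (take μ (drop r x))) := by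
    rw [drop_take, take_take, drop_drop, min_eq_left (by omega)]
  rw [this]
  exact (take_sublist _ _).trans (drop_sublist _ _)

lemma win_left (u x y : List α) (r l : ℕ) (h : r + l ≤ u.length) :
    take l (drop r (u ++ x)) = take l (drop r (u ++ y)) := by
  rw [take_drop, take_drop, take_append_of_le_length h, take_append_of_le_length h]

lemma win_right (x y w : List α) (r : ℕ) (hxy : x.length = y.length) (h : x.length ≤ r) :
    drop r (x ++ w) = drop r (y ++ w) := by
  rw [drop_append, drop_append, drop_of_length_le h, drop_of_length_le (l := y) (by omega), hxy]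

lemma win_mid (u v w : List α) (a c : α) (r l : ℕ) (h1 : u.length ≤ r)
    (h2 : r + l ≤ u.length + v.length) :
    take l (drop (r + 1) (u ++ a :: (v ++ w))) = take l (drop r (u ++ v ++ c :: w)) := by
  obtain ⟨r, rfl⟩ := Nat.exists_eq_add_of_le h1
  rw [append_assoc, add_assoc, drop_length_add_append, drop_length_add_append, drop_succ_cons]
  exact win_left v _ _ _ _ (by omega)

lemma glue (x y : List α) (M : ℕ) (g : ℕ → ℝ)
    (h : ∀ i, ∃ z, z <+ take M (drop (i * M) x) ∧ z <+ take M (drop (i * M) y) ∧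
      ((min M (x.length - i * M) : ℕ) : ℝ) ≤ z.length + g i) (k : ℕ) :
    ∃ z, z <+ take (k * M) x ∧ z <+ take (k * M) y ∧
      ((min (k * M) x.length : ℕ) : ℝ) ≤ z.length + ∑ i ∈ Finset.range k, g i := by
  induction k with
  | zero => exact ⟨[], nil_sublist _, nil_sublist _, by simp⟩
  | succ k ih =>
    obtain ⟨z, h1, h2, h3⟩ := ih
    obtain ⟨z', k1, k2, k3⟩ := h k
    refine ⟨z ++ z', ?_, ?_, ?_⟩
    · rw [add_mul, one_mul, take_add]; exact h1.append k1
    · rw [add_mul, one_mul, take_add]; exact h2.append k2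
    · have : min ((k + 1) * M) x.length = min (k * M) x.length + min M (x.length - k * M) := by
        rw [add_mul, one_mul]; omega
      rw [this, Finset.sum_range_succ, length_append]
      push_cast at h3 k3 ⊢
      linarith

lemma emb_block (μ r E : ℕ) (D : ℝ) (hD : 0 ≤ D) (hμ : μ < 2 ^ E)
    (h : ∀ l ≤ μ, Emb l D) :
    ∃ τ : List Bool → List Bool → ℝ, IsCut τ ∧
      (∀ x y, x.length = y.length → (μ = 0 ∨ r + μ ≤ x.length) → One x y →
        τ x y ≤ E * (2 * E * D)) ∧
      (∀ x y, (∀ t l, t + l ≤ μ → take l (drop (r + t) x) = take l (drop (r + t) y)) →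
        τ x y ≤ E * 2) ∧
      (∀ x y, (∀ t l, t + 1 + l ≤ μ → take l (drop (r + t + 1) x) = take l (drop (r + t) y)) →
        τ x y ≤ E * 2) ∧
      (∀ x y, x.length = y.length → (μ = 0 ∨ r + μ ≤ x.length) →
        ∃ z, z <+ take μ (drop r x) ∧ z <+ take μ (drop r y) ∧
          (μ : ℝ) ≤ z.length + 8 * τ x y) := by
  have hl : ∀ e : ℕ, μ + 1 - 2 ^ e ≤ μ := fun e => by have := Nat.one_le_two_pow (n := e); omega
  choose ρ hρ hup hlow using fun e : ℕ => h _ (hl e)
  have hlam : ∀ e : ℕ, 0 ≤ Real.log (2 * (2 ^ e : ℕ)) / (2 ^ e : ℕ) := fun e =>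
    div_nonneg (Real.log_nonneg (by
      have : (1 : ℝ) ≤ (2 ^ e : ℕ) := by exact_mod_cast Nat.one_le_two_pow
      linarith)) (by positivity)
  choose σ hσ hU1 hU2 hL using fun e : ℕ => (hρ e).lsh _ (hlam e) (2 ^ e)
  obtain ⟨win, hwin⟩ : ∃ win : ℕ → List Bool → ℕ → List Bool,
    ∀ e x t, win e x t = take (μ + 1 - 2 ^ e) (drop (r + t) x) := ⟨_, fun _ _ _ => rfl⟩
  have hlen : ∀ e x t, (μ = 0 ∨ r + μ ≤ x.length) → t < 2 ^ e →
      (win e x t).length = μ + 1 - 2 ^ e := by
    intro e x t h1 h2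
    rw [hwin]; simp; omega
  have hsum : ∀ (g : ℕ → ℝ) (c : ℝ), (∀ e < E, g e ≤ c) → ∑ e ∈ Finset.range E, g e ≤ E * c :=
    fun g c hg => (Finset.sum_le_card_nsmul _ _ c fun e he => hg e (Finset.mem_range.1 he)).trans
      (by simp)
  refine ⟨fun x y => ∑ e ∈ Finset.range E, σ e (win e x) (win e y),
    IsCut.sum_range E fun e => (hσ e).comap (win e), ?_, ?_, ?_, ?_⟩
  · intro x y hxy hx h1
    refine hsum _ _ fun e he => (hU1 e _ _).trans ?_
    have h2 : ∑ t ∈ Finset.range (2 ^ e), ρ e (win e x t) (win e y t) ≤ (2 ^ e : ℕ) * D :=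
      (Finset.sum_le_card_nsmul _ _ D fun t ht => hup e _ _ (hlen _ _ _ hx (Finset.mem_range.1 ht))
        (hlen _ _ _ (hxy ▸ hx) (Finset.mem_range.1 ht))
        (by rw [hwin, hwin]; exact win_one hxy h1 _ _)).trans (by simp)
    refine (mul_le_mul_of_nonneg_left h2 (by have := hlam e; positivity)).trans ?_
    have h3 : Real.log (2 * (2 ^ e : ℕ)) ≤ E := by
      push_cast
      rw [← pow_succ', Real.log_pow]
      have h4 : ((e + 1 : ℕ) : ℝ) ≤ E := by exact_mod_cast he
      have := Real.log_two_lt_d9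
      have h5 : (0 : ℝ) ≤ (e + 1 : ℕ) := by positivity
      nlinarith
    have h6 : (0 : ℝ) < (2 ^ e : ℕ) := by positivity
    calc _ = 2 * Real.log (2 * (2 ^ e : ℕ)) * D := by field_simp
      _ ≤ _ := by gcongr
  · intro x y hxy
    refine hsum _ _ fun e _ => (hU1 e _ _).trans ?_
    rw [Finset.sum_eq_zero, mul_zero]
    · norm_num
    intro t ht
    have ht := Finset.mem_range.1 ht
    by_cases h0 : μ + 1 - 2 ^ e = 0
    · rw [hwin, hwin, h0, take_zero, take_zero, (hρ e).self]
    · rw [hwin, hwin, hxy _ _ (by omega), (hρ e).self]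
  · intro x y hxy
    refine hsum _ _ fun e _ => hU2 e _ _ fun t ht => ?_
    by_cases h0 : μ + 1 - 2 ^ e = 0
    · rw [hwin, hwin, h0, take_zero, take_zero]
    · rw [hwin, hwin, ← add_assoc, hxy _ _ (by omega)]
  · intro x y hxy hx
    have hex : ∃ k, ∃ z, z <+ take μ (drop r x) ∧ z <+ take μ (drop r y) ∧ μ ≤ z.length + k :=
      ⟨μ, [], nil_sublist _, nil_sublist _, by simp⟩
    classical
    obtain ⟨z, h1, h2, h3⟩ := Nat.find_spec hex
    have hmin : ∀ z', z' <+ take μ (drop r x) → z' <+ take μ (drop r y) →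
        Nat.find hex ≤ μ - z'.length := fun z' k1 k2 => Nat.find_min' hex ⟨z', k1, k2, by omega⟩
    generalize Nat.find hex = k at h3 hmin
    refine ⟨z, h1, h2, ?_⟩
    have hnn : ∀ e ∈ Finset.range E, 0 ≤ σ e (win e x) (win e y) := fun e _ => (hσ e).nonneg _ _
    have h4 : (μ : ℝ) ≤ z.length + k := by exact_mod_cast h3
    rcases Nat.eq_zero_or_pos k with rfl | hk
    · have := Finset.sum_nonneg hnn
      rw [Nat.cast_zero] at h4; linarith
    have hkμ := hmin [] (nil_sublist _) (nil_sublist _)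
    obtain ⟨e, he1, he2⟩ : ∃ e, 2 * 2 ^ e ≤ k + 1 ∧ k + 1 < 4 * 2 ^ e := by
      have a1 := Nat.pow_log_le_self 2 (x := k + 1) (by omega)
      have a2 := Nat.lt_pow_succ_log_self (b := 2) (by norm_num) (k + 1)
      have a3 : 0 < Nat.log 2 (k + 1) := Nat.log_pos (by norm_num) (by omega)
      obtain ⟨e, he⟩ := Nat.exists_eq_add_of_lt a3
      rw [he, zero_add] at a1 a2
      exact ⟨e, by rw [pow_succ] at a1; omega, by rw [pow_succ, pow_succ] at a2; omega⟩
    have heE : e < E := by
      have : 2 ^ e < 2 ^ E := by simp at hkμ; omega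
      exact (Nat.pow_lt_pow_iff_right (by norm_num)).1 this
    have h5 := hL e (win e x) (win e y) (2 ^ e : ℕ) fun t ht t' ht' => by
      obtain ⟨z', k1, k2, k3⟩ := hlow e _ _ (hlen e x t hx ht) (hlen e y t' (hxy ▸ hx) ht')
      rw [hwin] at k1 k2
      simp only [length_nil, Nat.sub_zero] at hkμ
      have k4 := hmin z' (k1.trans (win_sub _ _ _ _ _ (by omega)))
        (k2.trans (win_sub _ _ _ _ _ (by omega)))
      have k5 : 2 ^ e + z'.length ≤ μ + 1 - 2 ^ e := by omega
      have k6 : ((2 ^ e : ℕ) : ℝ) + z'.length ≤ (μ + 1 - 2 ^ e : ℕ) := by exact_mod_cast k5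
      linarith
    have h6 : (0 : ℝ) < (2 ^ e : ℕ) := by positivity
    rw [div_mul_cancel₀ _ h6.ne', Real.exp_neg, Real.exp_log (by positivity)] at h5
    have h7 : ((2 ^ e : ℕ) : ℝ) * (1 - (2 ^ e : ℕ) * (2 * ((2 ^ e : ℕ) : ℝ))⁻¹)
      = (2 ^ e : ℕ) / 2 := by field_simp; ring
    have h8 := Finset.single_le_sum hnn (Finset.mem_range.2 heE)
    have h9 : (k : ℝ) + 1 < 4 * (2 ^ e : ℕ) := by exact_mod_cast he2
    linarith

lemma emb_step (n M b E : ℕ) (D : ℝ) (hD : 0 ≤ D) (hn : n ≤ b * M) (hE : n < 2 ^ E)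
    (h : ∀ l ≤ M, l < 2 ^ E → Emb l D) : Emb n (8 * E * (2 * b + 4 * E * D)) := by
  choose τ hτ h1 h2 h3 h4 using fun i : ℕ => emb_block (min M (n - i * M)) (i * M) E D hD
    (by omega) (fun l hl => h l (by omega) (by omega))
  have hc : IsCut (fun x y => 8 * ∑ i ∈ Finset.range b, τ i x y) :=
    (IsCut.sum_range b hτ).smul (by norm_num)
  have hE0 : (0 : ℝ) ≤ E := by positivity
  have key : ∀ (u v w : List Bool) (a c : Bool), (u ++ a :: (v ++ w)).length = n →
      8 * ∑ i ∈ Finset.range b, τ i (u ++ a :: (v ++ w)) (u ++ v ++ c :: w)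
        ≤ 8 * E * (2 * b + 4 * E * D) := by
    intro u v w a c hl
    have hxy : (u ++ a :: (v ++ w)).length = (u ++ v ++ c :: w).length := by simp; omega
    have hone : One (u ++ a :: (v ++ w)) (u ++ v ++ c :: w) :=
      ⟨u ++ (v ++ w), (Sublist.refl u).append (sublist_cons_self _ _), by
        rw [← append_assoc]; exact (Sublist.refl _).append (sublist_cons_self _ _),
        by simp; omega⟩
    have hK : (0 : ℝ) ≤ E * (2 * E * D) := by positivity
    have hb : ∀ i ∈ Finset.range b, τ i (u ++ a :: (v ++ w)) (u ++ v ++ c :: w) ≤ E * 2 +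
        ((if i = u.length / M then E * (2 * E * D) else 0) +
        (if i = (u.length + v.length) / M then E * (2 * E * D) else 0)) := by
      intro i _
      have k1 := h1 i _ _ hxy (by omega) hone
      by_cases c1 : i = u.length / M
      · rw [if_pos c1]; split_ifs <;> linarith
      by_cases c2 : i = (u.length + v.length) / M
      · rw [if_pos c2]; split_ifs <;> linarith
      rw [if_neg c1, if_neg c2, add_zero, add_zero]
      have d1 : i * M + M ≤ u.length ∨ u.length < i * M := by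
        by_contra hh
        exact c1 (Nat.div_eq_of_lt_le (by omega) (by rw [add_mul]; omega)).symm
      have d2 : i * M + M ≤ u.length + v.length ∨ u.length + v.length < i * M := by
        by_contra hh
        exact c2 (Nat.div_eq_of_lt_le (by omega) (by rw [add_mul]; omega)).symm
      rcases d1 with d1 | d1
      · refine h2 i _ _ fun t l htl => ?_
        rw [append_assoc]
        exact win_left _ _ _ _ _ (by omega)
      rcases d2 with d2 | d2
      · exact h3 i _ _ fun t l htl => win_mid _ _ _ _ _ _ _ (by omega) (by omega)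
      · refine h2 i _ _ fun t l htl => ?_
        have := win_right (u ++ a :: v) (u ++ v ++ [c]) w (i * M + t) (by simp)
          (by simp; omega)
        simp only [append_assoc, cons_append, nil_append] at this ⊢
        rw [this]
    have := Finset.sum_le_sum hb
    simp only [Finset.sum_add_distrib, Finset.sum_const, Finset.card_range, nsmul_eq_mul,
      Finset.sum_ite_eq'] at this
    split_ifs at this <;> nlinarith
  refine ⟨_, hc, ?_, ?_⟩
  · rintro x y hx hy ⟨z, k1, k2, k3⟩
    by_cases k4 : n ≤ z.length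
    · rw [← k1.eq_of_length_le (by omega), ← k2.eq_of_length_le (by omega), hc.self z]
      positivity
    obtain ⟨u, v, a, e1, rfl⟩ := sub_ins k1 (by omega)
    obtain ⟨u', w, c, e2, rfl⟩ := sub_ins k2 (by omega)
    rcases append_eq_append_iff.1 (e1.symm.trans e2) with ⟨v', rfl, rfl⟩ | ⟨v', rfl, rfl⟩
    · exact key _ _ _ _ _ hx
    · have := hc.symm (u' ++ v' ++ a :: v) (u' ++ c :: (v' ++ v))
      exact this.le.trans (key _ _ _ _ _ hy)
  · intro x y hx hy
    obtain ⟨z, k1, k2, k3⟩ := glue x y M (fun i => 8 * τ i x y) (fun i => by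
      obtain ⟨z, k1, k2, k3⟩ := h4 i x y (by omega) (by omega)
      exact ⟨z, k1.trans (take_sublist_take_left (min_le_left _ _)),
        k2.trans (take_sublist_take_left (min_le_left _ _)), by rw [hx]; exact k3⟩) b
    refine ⟨z, k1.trans (take_sublist _ _), k2.trans (take_sublist _ _), ?_⟩
    rw [hx, min_eq_right hn, ← Finset.mul_sum] at k3
    exact k3

lemma emb_iter (b E : ℕ) (hb : 1 ≤ b) (hE : 1 ≤ E) (j : ℕ) :
    ∀ n ≤ b ^ j, n < 2 ^ E → Emb n (b * (48 * E ^ 2) ^ j) := by
  have hb' : (1 : ℝ) ≤ b := by exact_mod_cast hb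
  have hE' : (1 : ℝ) ≤ E := by exact_mod_cast hE
  induction j with
  | zero => intro n hn _; exact (emb_base (by simpa using hn)).mono (by simpa using hb')
  | succ j ih =>
    intro n hn hnE
    refine (emb_step n (b ^ j) b E _ (by positivity) (by rwa [pow_succ'] at hn) hnE ih).mono ?_
    have h1 : (1 : ℝ) ≤ (48 * E ^ 2) ^ j := one_le_pow₀ (by nlinarith)
    rw [pow_succ (48 * (E : ℝ) ^ 2)]
    generalize (48 * (E : ℝ) ^ 2) ^ j = X at h1
    have h2 : (E : ℝ) * b ≤ E * b * (E * X) :=
      le_mul_of_one_le_right (by positivity) (by nlinarith)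
    nlinarith

theorem upper_bound : ∃ n0 : ℕ, ∀ n ≥ n0,
    c1 n ≤ Real.exp (15 * √(Real.log n * Real.log (Real.log n))) := by
  have ht : Filter.Tendsto (fun n : ℕ => Real.log (Real.log n)) Filter.atTop Filter.atTop :=
    Real.tendsto_log_atTop.comp (Real.tendsto_log_atTop.comp tendsto_natCast_atTop_atTop)
  have ht' : Filter.Tendsto (fun n : ℕ => Real.log n) Filter.atTop Filter.atTop :=
    Real.tendsto_log_atTop.comp tendsto_natCast_atTop_atTop
  obtain ⟨n0, hn0⟩ := Filter.eventually_atTop.1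
    (((ht.eventually_ge_atTop 7).and (ht'.eventually_ge_atTop 1)).and
      (Filter.eventually_ge_atTop 1))
  refine ⟨n0, fun n hn => ?_⟩
  obtain ⟨⟨h1, h2⟩, h3⟩ := hn0 n hn
  have hE : (Nat.log 2 n : ℝ) * Real.log 2 ≤ Real.log n := by
    rw [← Real.log_pow]
    exact Real.log_le_log (by positivity) (by exact_mod_cast Nat.pow_log_le_self 2 (by omega))
  have hnE := Nat.lt_pow_succ_log_self (b := 2) (by norm_num) n
  generalize Nat.log 2 n = ν at hE hnE
  generalize Real.log n = L at *
  have hLL : Real.log L ≤ L := by have := Real.log_le_sub_one_of_pos (x := L) (by linarith); linarith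
  have hl2 := Real.log_two_gt_d9
  have hl2' := Real.log_two_lt_d9
  have hν : (0 : ℝ) ≤ ν := by positivity
  have hEL : ((ν + 1 : ℕ) : ℝ) ≤ 3 * L := by push_cast; nlinarith
  have hlog : Real.log (48 * ((ν + 1 : ℕ) : ℝ) ^ 2) ≤ 3 * Real.log L := by
    have a1 : 48 * ((ν + 1 : ℕ) : ℝ) ^ 2 ≤ 2 ^ 9 * L ^ 2 := by
      have : ((ν + 1 : ℕ) : ℝ) ^ 2 ≤ (3 * L) ^ 2 := by gcongr
      nlinarith
    refine (Real.log_le_log (by positivity) a1).trans ?_
    rw [Real.log_mul (by positivity) (by positivity), Real.log_pow, Real.log_pow]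
    push_cast; linarith
  generalize Real.log L = Q at *
  have hR2 : √(L * Q) ^ 2 = L * Q := Real.sq_sqrt (by positivity)
  have hRQ : Q ≤ √(L * Q) := Real.le_sqrt_of_sq_le (by nlinarith)
  generalize √(L * Q) = R at *
  have hR : 0 < R := by linarith
  have hβ := Nat.le_ceil R
  have hβ' := Nat.ceil_lt_add_one hR.le
  have hJ := Nat.le_ceil (3 * L / R)
  have hJ' := Nat.ceil_lt_add_one (a := 3 * L / R) (by positivity)
  generalize ⌈R⌉₊ = β at *
  generalize ⌈3 * L / R⌉₊ = J at *
  have hβJ : ν + 1 ≤ β * J := by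
    have : ((ν + 1 : ℕ) : ℝ) ≤ β * J := by
      rw [div_le_iff₀ hR] at hJ
      have : (J : ℝ) * R ≤ J * β := by gcongr
      linarith
    exact_mod_cast this
  have hemb := emb_iter (2 ^ β) (ν + 1) Nat.one_le_two_pow (by omega) J n (by
    rw [← pow_mul]; exact hnE.le.trans (Nat.pow_le_pow_right (by norm_num) hβJ)) hnE
  refine (c1_le_of_emb (by positivity) hemb).trans ?_
  rw [← Real.log_le_iff_le_exp (by positivity), Real.log_mul (by positivity) (by norm_num),
    Real.log_mul (by positivity) (by positivity), Real.log_pow, Nat.cast_pow, Real.log_pow]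
  have b1 : (J : ℝ) * Real.log (48 * ((ν + 1 : ℕ) : ℝ) ^ 2) ≤ (3 * L / R + 1) * (3 * Q) :=
    mul_le_mul hJ'.le hlog (Real.log_nonneg (by push_cast; nlinarith)) (by positivity)
  have b2 : (3 * L / R + 1) * (3 * Q) = 9 * R + 3 * Q := by
    field_simp; nlinarith
  have b3 : (β : ℝ) * Real.log 2 ≤ β := by
    have : (0 : ℝ) ≤ β := by positivity
    nlinarith
  push_cast at b1 ⊢
  linarith

end Vale.Agent.P238
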